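import Vale.Agent.P274.Full.Defs
import Mathlib.LinearAlgebra.Dimension.Finite
import Mathlib.LinearAlgebra.Basis.VectorSpace
import Mathlib.LinearAlgebra.Projection

/-!
Coordinates adapted to a generic real subspace of complex space.
-/

open Complex Module

namespace Vale.Agent.P274.Full.Pieces

noncomputable section

variable {V : Type*} [AddCommGroup V] [Module ℂ V] [FiniteDimensional ℂ V]

/-- The largest complex subspace of a real subspace. -/
def cplxPart (T : Submodule ℝ V) : Submodule ℂ V where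
  carrier := {w | w ∈ T ∧ I • w ∈ T}
  zero_mem' := ⟨T.zero_mem, by rw [smul_zero]; exact T.zero_mem⟩
  add_mem' := fun ha hb => ⟨T.add_mem ha.1 hb.1, by rw [smul_add]; exact T.add_mem ha.2 hb.2⟩
  smul_mem' := fun c w hw => by
    have key : ∀ (a b : ℝ) (u : V), u ∈ T → I • u ∈ T →
        ((a : ℂ) + (b : ℂ) * I) • u ∈ T := fun a b u h1 h2 => by
      rw [add_smul, mul_smul]
      exact T.add_mem (by simpa using T.smul_mem a h1) (by simpa using T.smul_mem b h2)
    refine ⟨?_, ?_⟩
    · rw [← re_add_im c]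
      exact key _ _ w hw.1 hw.2
    · have h3 : I • (I • w) ∈ T := by
        rw [smul_smul, I_mul_I, neg_smul, one_smul]; exact T.neg_mem hw.1
      rw [smul_comm, ← re_add_im c]
      exact key _ _ _ hw.2 h3

omit [FiniteDimensional ℂ V] in
theorem mem_cplxPart {T : Submodule ℝ V} {w : V} : w ∈ cplxPart T ↔ w ∈ T ∧ I • w ∈ T := Iff.rfl

/-- A generic real subspace is `{Im w = 0}` in suitable complex linear coordinates `(z, w)`. -/
theorem exists_adapted {n : ℕ} (T : Submodule ℝ (Cn n))
    (hgen : ∀ w, ∃ a ∈ T, ∃ b ∈ T, w = a + I • b) :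
    ∃ (m k : ℕ) (Φ : Mod m k ≃L[ℂ] Cn n), m + k = n ∧ ∀ p, Φ p ∈ T ↔ iv p.2 = 0 := by
  classical
  set Tc := cplxPart T with hTc
  obtain ⟨q, hq⟩ := Submodule.exists_isCompl (Tc.restrictScalars ℝ)
  set R := q ⊓ T with hR
  set m := finrank ℂ Tc
  set k := finrank ℝ R
  let bc := Module.finBasis ℂ Tc
  let br := Module.finBasis ℝ R
  let F : Mod m k →ₗ[ℂ] Cn n :=
    { toFun := fun p => ∑ i, p.1 i • (bc i : Cn n) + ∑ j, p.2 j • (br j : Cn n)
      map_add' := fun p p' => by
        simp only [Prod.fst_add, Prod.snd_add, PiLp.add_apply, add_smul, Finset.sum_add_distrib]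
        abel
      map_smul' := fun c p => by
        simp [smul_add, Finset.smul_sum, smul_smul] }
  have hsplit : ∀ t ∈ T, ∃ a ∈ Tc, ∃ r : R, t = a + (r : Cn n) := fun t ht => by
    obtain ⟨a, ha, b, hb, rfl⟩ := Submodule.mem_sup.1
      (hq.sup_eq_top.symm ▸ Submodule.mem_top : t ∈ Tc.restrictScalars ℝ ⊔ q)
    refine ⟨a, ha, ⟨b, hb, ?_⟩, rfl⟩
    simpa using T.sub_mem ht (mem_cplxPart.1 ha).1
  have hRc : ∀ r : R, (r : Cn n) ∈ Tc → r = 0 := fun r hr =>
    Subtype.ext (Submodule.disjoint_def.1 hq.disjoint r hr r.2.1)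
  have hRT : ∀ r : R, (r : Cn n) ∈ T := fun r => r.2.2
  have hTcF : ∀ a ∈ Tc, ∃ z : Cn m, ∑ i, z i • (bc i : Cn n) = a := fun a ha => by
    refine ⟨WithLp.toLp 2 fun i => bc.repr ⟨a, ha⟩ i, ?_⟩
    have := congrArg Subtype.val (bc.sum_repr ⟨a, ha⟩)
    simp only [Submodule.coe_sum, Submodule.coe_smul] at this
    exact this
  have hval : ∀ p : Mod m k, F p = ∑ i, p.1 i • (bc i : Cn n)
      + ((∑ j, (p.2 j).re • br j : R) : Cn n) + I • ((∑ j, (p.2 j).im • br j : R) : Cn n) := fun p => by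
    show ∑ i, p.1 i • (bc i : Cn n) + ∑ j, p.2 j • (br j : Cn n) = _
    rw [add_assoc]
    congr 1
    simp only [Submodule.coe_sum, Submodule.coe_smul, Finset.smul_sum, ← Finset.sum_add_distrib]
    refine Finset.sum_congr rfl fun j _ => ?_
    conv_lhs => rw [← re_add_im (p.2 j)]
    rw [add_smul, mul_smul]
    simp [smul_comm I]
  have hzTc : ∀ z : Cn m, ∑ i, z i • (bc i : Cn n) ∈ Tc := fun z =>
    Submodule.sum_mem _ fun i _ => Tc.smul_mem _ (bc i).2
  have hmem : ∀ p, F p ∈ T ↔ iv p.2 = 0 := fun p => by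
    rw [hval p]
    constructor
    · intro h
      have h1 : I • ((∑ j, (p.2 j).im • br j : R) : Cn n) ∈ T := by
        have := T.sub_mem h (T.add_mem (mem_cplxPart.1 (hzTc p.1)).1
          (hRT (∑ j, (p.2 j).re • br j)))
        simpa using this
      have h2 := hRc _ (mem_cplxPart.2 ⟨hRT _, h1⟩)
      ext j
      simpa [iv] using (Fintype.linearIndependent_iff.1 br.linearIndependent _ h2) j
    · intro h
      have h0 : ∀ j, (p.2 j).im = 0 := fun j => by
        simpa [iv] using congrArg (fun v : Rn k => v j) h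
      simp only [h0, zero_smul, Finset.sum_const_zero, ZeroMemClass.coe_zero, smul_zero, add_zero]
      exact T.add_mem (mem_cplxPart.1 (hzTc p.1)).1 (hRT _)
  have hinj : Function.Injective F := (injective_iff_map_eq_zero F).2 fun p hp => by
    have hiv := (hmem p).1 (hp ▸ T.zero_mem)
    have h0 : ∀ j, (p.2 j).im = 0 := fun j => by
      simpa [iv] using congrArg (fun v : Rn k => v j) hiv
    rw [hval p] at hp
    simp only [h0, zero_smul, Finset.sum_const_zero, ZeroMemClass.coe_zero, smul_zero, add_zero]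
      at hp
    have hr : (∑ j, (p.2 j).re • br j : R) = 0 := hRc _ (by
      rw [← eq_neg_of_add_eq_zero_right hp |>.symm]
      exact Tc.neg_mem (hzTc p.1))
    rw [hr, ZeroMemClass.coe_zero, add_zero] at hp
    have hz := Fintype.linearIndependent_iff.1 bc.linearIndependent (fun i => p.1 i)
      (Subtype.ext (by simpa using hp))
    have hw := Fintype.linearIndependent_iff.1 br.linearIndependent (fun j => (p.2 j).re) hr
    refine Prod.ext (PiLp.ext fun i => hz i) (PiLp.ext fun j => ?_)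
    exact Complex.ext (hw j) (h0 j)
  have hsurj : Function.Surjective F := fun w => by
    obtain ⟨a, ha, b, hb, rfl⟩ := hgen w
    obtain ⟨a', ha', r, rfl⟩ := hsplit a ha
    obtain ⟨b', hb', r', rfl⟩ := hsplit b hb
    obtain ⟨z, hz⟩ := hTcF (a' + I • b') (Tc.add_mem ha' (Tc.smul_mem I hb'))
    refine ⟨(z, WithLp.toLp 2 fun j => (⟨br.repr r j, br.repr r' j⟩ : ℂ)), ?_⟩
    rw [hval]
    have e1 : (∑ j, br.repr r j • br j : R) = r := br.sum_repr r
    have e2 : (∑ j, br.repr r' j • br j : R) = r' := br.sum_repr r'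
    simp only [hz]
    erw [e1, e2]
    rw [smul_add]
    abel
  refine ⟨m, k, (LinearEquiv.ofBijective F ⟨hinj, hsurj⟩).toContinuousLinearEquiv, ?_, hmem⟩
  have := (LinearEquiv.ofBijective F ⟨hinj, hsurj⟩).finrank_eq
  simpa using this

end

end Vale.Agent.P274.Full.Pieces
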