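import Mathlib.RingTheory.Smooth.Field
import Mathlib.RingTheory.MvPolynomial.Basic
import Mathlib.Algebra.MvPolynomial.PDeriv
import Mathlib.Algebra.TrivSqZeroExt.Basic
import Mathlib.RingTheory.Localization.FractionRing
import Mathlib.LinearAlgebra.Matrix.Block
import Mathlib.Analysis.Complex.Basic
import Mathlib.RingTheory.Ideal.Maximal

/-!
A set on which the differentials of some equations and of `n` polynomials are dependent is killed
by a polynomial relation between the `n` polynomials.
-/

namespace Vale.Agent.P274.Full.Pieces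

open MvPolynomial Matrix

set_option linter.style.haveILetI false

noncomputable section

/-- The expansion of the determinant of a product in the maximal minors of the first factor. -/
theorem det_mul_sum {m ι R : Type*} [Fintype m] [DecidableEq m] [Fintype ι]
    [CommRing R] (M : Matrix m ι R) (C : Matrix ι m R) :
    (M * C).det = ∑ σ : m → ι, (∏ b, C (σ b) b) * (M.submatrix id σ).det := by
  classical
  have e : (M * C).det = Matrix.detRowAlternating fun b => ∑ i, C i b • fun a => M a i := by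
    rw [← Matrix.det_transpose]
    refine congrArg Matrix.det (funext fun b => funext fun a => ?_)
    simp [Matrix.mul_apply, mul_comm]
  rw [e, ← AlternatingMap.coe_multilinearMap, MultilinearMap.map_sum]
  refine Finset.sum_congr rfl fun σ _ => ?_
  rw [MultilinearMap.map_smul_univ, smul_eq_mul, ← Matrix.det_transpose (M.submatrix id σ)]
  rfl

/-- The determinant of a product vanishes when all maximal minors of the first factor vanish. -/
theorem det_mul_eq_zero_of_minors {m ι R : Type*} [Fintype m] [DecidableEq m] [Fintype ι]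
    [CommRing R] (M : Matrix m ι R) (C : Matrix ι m R)
    (h : ∀ σ : m → ι, (M.submatrix id σ).det = 0) : (M * C).det = 0 := by
  classical
  rw [det_mul_sum]
  exact Finset.sum_eq_zero fun σ _ => by rw [h σ, mul_zero]

/-- First order expansion of a homomorphism to dual numbers. -/
theorem snd_algHom {ι K : Type*} [Fintype ι] [CommRing K] [Algebra ℂ K]
    (h : MvPolynomial ι ℂ →ₐ[ℂ] TrivSqZeroExt K K) (g : MvPolynomial ι ℂ →ₐ[ℂ] K)
    (hg : ∀ f, (h f).fst = g f) (f : MvPolynomial ι ℂ) :
    (h f).snd = ∑ i, g (pderiv i f) * (h (X i)).snd := by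
  classical
  induction f using MvPolynomial.induction_on with
  | C a =>
    rw [← MvPolynomial.algebraMap_eq, h.commutes, TrivSqZeroExt.algebraMap_eq_inl']
    simp
  | add p q hp hq =>
    simp [hp, hq, add_mul, Finset.sum_add_distrib]
  | mul_X p i hp =>
    rw [map_mul, TrivSqZeroExt.snd_mul, hp, hg, hg]
    simp only [pderiv_mul, map_add, map_mul, smul_eq_mul, op_smul_eq_smul, pderiv_X, add_mul,
      Finset.sum_add_distrib, Finset.mul_sum]
    rw [Finset.sum_eq_single i (f := fun j => g p * g (Pi.single (M := fun _ : ι => MvPolynomial ι ℂ) j 1 i) * (h (X j)).snd)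
      (fun j _ hj => by simp [Pi.single_eq_of_ne hj.symm]) (by simp)]
    simp only [Pi.single_eq_same, map_one, mul_one]
    rw [add_comm]
    congr 1
    exact Finset.sum_congr rfl fun j _ => by ring

variable {ι : Type} [Fintype ι] {n c : ℕ}

/-- The square matrix of derivatives of some polynomials with respect to some variables. -/
def jac {r : Type*} {R : Type*} [CommRing R] (f : r → MvPolynomial ι R) (σ : r → ι) :
    Matrix r r (MvPolynomial ι R) :=
  Matrix.of fun a b => pderiv (σ b) (f a)

/-- If on a set the equations `p` vanish with independent differentials and the differentials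
of `p, ζ` are dependent, then the `ζ` satisfy a polynomial relation on the set. -/
theorem exists_relation (p : Fin c → MvPolynomial ι ℂ) (ζ : Fin n → MvPolynomial ι ℂ)
    (τ : Fin c → ι) (B : Set (ι → ℂ)) (hp : ∀ x ∈ B, ∀ a, eval x (p a) = 0)
    (hδ : ∀ x ∈ B, eval x (jac p τ).det ≠ 0)
    (hdep : ∀ x ∈ B, ∀ σ : Fin c ⊕ Fin n → ι, eval x (jac (Sum.elim p ζ) σ).det = 0) :
    ∃ Q : MvPolynomial (Fin n) ℂ, Q ≠ 0 ∧ ∀ x ∈ B, eval (fun l => eval x (ζ l)) Q = 0 := by
  classical
  set I : Ideal (MvPolynomial ι ℂ) := ⨅ x ∈ B, RingHom.ker (eval x) with hI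
  have hmem : ∀ {f}, f ∈ I ↔ ∀ x ∈ B, eval x f = 0 := fun {f} => by
    simp [hI, Submodule.mem_iInf, RingHom.mem_ker]
  set φ : MvPolynomial (Fin n) ℂ →ₐ[ℂ] MvPolynomial ι ℂ := aeval ζ with hφ
  set δ := (jac p τ).det with hδdef
  have hev : ∀ (Q : MvPolynomial (Fin n) ℂ) (x : ι → ℂ),
      eval x (φ Q) = eval (fun l => eval x (ζ l)) Q := by
    intro Q x
    induction Q using MvPolynomial.induction_on with
    | C a => simp [hφ]
    | add p q hp hq => simp [hp, hq]
    | mul_X p i hp => simp [hp]; simp [hφ]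
  let S : Submonoid (MvPolynomial ι ℂ) :=
    { carrier := {f | ∃ (Q : MvPolynomial (Fin n) ℂ) (j : ℕ), Q ≠ 0 ∧ f = φ Q * δ ^ j}
      one_mem' := ⟨1, 0, one_ne_zero, by simp⟩
      mul_mem' := by
        rintro f g ⟨Q, j, hQ, rfl⟩ ⟨R, l, hR, rfl⟩
        exact ⟨Q * R, j + l, mul_ne_zero hQ hR, by rw [map_mul, pow_add]; ring⟩ }
  by_cases hdisj : Disjoint (I : Set (MvPolynomial ι ℂ)) (S : Set (MvPolynomial ι ℂ))
  swap
  · obtain ⟨f, hfI, Q, j, hQ, rfl⟩ := Set.not_disjoint_iff.1 hdisj
    refine ⟨Q, hQ, fun x hx => ?_⟩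
    have := hmem.1 hfI x hx
    rw [map_mul, map_pow, hev, mul_eq_zero] at this
    exact this.resolve_right (pow_ne_zero _ (hδ x hx))
  exfalso
  obtain ⟨P, hP, hIP, hPS⟩ := Ideal.exists_le_prime_disjoint I S hdisj
  have : P.IsPrime := hP
  let K := FractionRing (MvPolynomial ι ℂ ⧸ P)
  let mk : MvPolynomial ι ℂ →ₐ[ℂ] K :=
    (IsScalarTower.toAlgHom ℂ (MvPolynomial ι ℂ ⧸ P) K).comp (Ideal.Quotient.mkₐ ℂ P)
  have hker : ∀ {f}, mk f = 0 ↔ f ∈ P := fun {f} => by
    show algebraMap (MvPolynomial ι ℂ ⧸ P) K (Ideal.Quotient.mk P f) = 0 ↔ _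
    rw [map_eq_zero_iff _ (IsFractionRing.injective _ K), Ideal.Quotient.eq_zero_iff_mem]
  have hinj : Function.Injective (mk.comp φ) := by
    rw [injective_iff_map_eq_zero]
    intro Q hQ
    by_contra hne
    exact Set.disjoint_left.1 hPS (hker.1 hQ) ⟨Q, 0, hne, by simp⟩
  let F := FractionRing (MvPolynomial (Fin n) ℂ)
  let ψ : F →+* K := IsFractionRing.lift (g := (mk.comp φ).toRingHom) hinj
  have hψ : ∀ Q, ψ (algebraMap _ F Q) = mk (φ Q) := fun Q =>
    IsFractionRing.lift_algebraMap (g := (mk.comp φ).toRingHom) hinj Q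
  letI : Algebra F K := ψ.toAlgebra
  haveI : IsScalarTower ℂ F K := IsScalarTower.of_algebraMap_eq fun a => by
    rw [RingHom.algebraMap_toAlgebra, IsScalarTower.algebraMap_apply ℂ (MvPolynomial (Fin n) ℂ) F,
      hψ, AlgHom.commutes, AlgHom.commutes]
  haveI : Algebra.EssFiniteType (MvPolynomial ι ℂ ⧸ P) K :=
    Algebra.EssFiniteType.of_isLocalization K (nonZeroDivisors (MvPolynomial ι ℂ ⧸ P))
  haveI : Algebra.EssFiniteType ℂ K :=
    Algebra.EssFiniteType.comp ℂ (MvPolynomial ι ℂ ⧸ P) K
  haveI : Algebra.EssFiniteType F K := Algebra.EssFiniteType.of_comp ℂ F K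
  haveI : CharZero F := charZero_of_injective_algebraMap (algebraMap ℂ F).injective
  haveI : Algebra.FormallySmooth F K := Algebra.FormallySmooth.of_perfectField
  -- tangent vectors over `K`
  have key : ∀ j : Fin n, ∃ v : ι → K, (∀ a, ∑ i, mk (pderiv i (p a)) * v i = 0) ∧
      ∀ l, ∑ i, mk (pderiv i (ζ l)) * v i = if l = j then 1 else 0 := by
    intro j
    let θ₀ : MvPolynomial (Fin n) ℂ →ₐ[ℂ] TrivSqZeroExt K K :=
      aeval fun l => TrivSqZeroExt.inl (mk (ζ l)) + TrivSqZeroExt.inr (if l = j then 1 else 0)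
    have hfst : ∀ Q, (θ₀ Q).fst = mk (φ Q) := by
      intro Q
      induction Q using MvPolynomial.induction_on with
      | C a =>
        rw [← MvPolynomial.algebraMap_eq, θ₀.commutes, φ.commutes, mk.commutes,
          TrivSqZeroExt.algebraMap_eq_inl', TrivSqZeroExt.fst_inl]
      | add p q hp hq => simp [hp, hq]
      | mul_X p i hp => simp [hp]; simp [θ₀, hφ]
    have hunit : ∀ y : nonZeroDivisors (MvPolynomial (Fin n) ℂ), IsUnit (θ₀.toRingHom y) := by
      intro y
      rw [TrivSqZeroExt.isUnit_iff_isUnit_fst, AlgHom.toRingHom_eq_coe, RingHom.coe_coe, hfst,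
        isUnit_iff_ne_zero]
      exact fun h0 => nonZeroDivisors.coe_ne_zero y (hinj (by simpa using h0))
    let θ : F →+* TrivSqZeroExt K K := IsLocalization.lift hunit
    have hθ : ∀ Q, θ (algebraMap _ F Q) = θ₀ Q := fun Q => IsLocalization.lift_eq hunit Q
    have hfθ : ∀ y, (θ y).fst = ψ y := by
      intro y
      have h1 : (TrivSqZeroExt.fstHom K K K).toRingHom.comp θ = ψ := by
        refine IsLocalization.ringHom_ext (nonZeroDivisors (MvPolynomial (Fin n) ℂ)) ?_
        refine RingHom.ext fun Q => ?_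
        simp [hθ, hψ, hfst]
      exact RingHom.congr_fun h1 y
    letI : Algebra F (TrivSqZeroExt K K) := θ.toAlgebra
    let g : TrivSqZeroExt K K →ₐ[F] K :=
      { (TrivSqZeroExt.fstHom K K K).toRingHom with commutes' := fun y => hfθ y }
    have hg : Function.Surjective g := fun k => ⟨TrivSqZeroExt.inl k, TrivSqZeroExt.fst_inl K k⟩
    have hnil : IsNilpotent (RingHom.ker (g : TrivSqZeroExt K K →+* K)) := by
      refine ⟨2, ?_⟩
      rw [Submodule.zero_eq_bot, eq_bot_iff, Submodule.pow_succ, Submodule.pow_one, Ideal.mul_le]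
      intro r hr s hs
      have hr' : r.fst = 0 := hr
      have hs' : s.fst = 0 := hs
      rw [Submodule.mem_bot]
      ext <;> simp [hr', hs']
    let Λ : K →ₐ[F] TrivSqZeroExt K K :=
      Algebra.FormallySmooth.liftOfSurjective (AlgHom.id F K) g hg hnil
    have hΛ : ∀ k, (Λ k).fst = k := fun k =>
      Algebra.FormallySmooth.liftOfSurjective_apply (AlgHom.id F K) g hg hnil k
    let H : MvPolynomial ι ℂ →ₐ[ℂ] TrivSqZeroExt K K :=
      { Λ.toRingHom.comp mk.toRingHom with
        commutes' := fun a => by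
          show Λ (mk (algebraMap ℂ _ a)) = _
          rw [mk.commutes, IsScalarTower.algebraMap_apply ℂ F K, Λ.commutes]
          show θ (algebraMap ℂ F a) = _
          rw [IsScalarTower.algebraMap_apply ℂ (MvPolynomial (Fin n) ℂ) F, hθ, θ₀.commutes] }
    have hHg : ∀ f, (H f).fst = mk f := fun f => hΛ (mk f)
    refine ⟨fun i => (H (X i)).snd, fun a => ?_, fun l => ?_⟩
    · rw [← snd_algHom H mk hHg (p a)]
      show (Λ (mk (p a))).snd = 0
      rw [hker.2 (hIP (hmem.2 fun x hx => hp x hx a)), map_zero, TrivSqZeroExt.snd_zero]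
    · rw [← snd_algHom H mk hHg (ζ l)]
      show (Λ (mk (ζ l))).snd = _
      have : mk (ζ l) = algebraMap F K (algebraMap (MvPolynomial (Fin n) ℂ) F (X l)) := by
        rw [RingHom.algebraMap_toAlgebra, hψ]; simp [hφ]
      rw [this, Λ.commutes]
      show (θ (algebraMap _ F (X l))).snd = _
      rw [hθ]
      simp [θ₀]
  choose v hv hvζ using key
  set M : Matrix (Fin c ⊕ Fin n) ι K :=
    Matrix.of fun a i => mk (pderiv i (Sum.elim p ζ a)) with hM
  set C : Matrix ι (Fin c ⊕ Fin n) K :=
    Matrix.of fun i b => Sum.elim (fun b' => if i = τ b' then 1 else 0) (fun j => v j i) b with hC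
  have h0 : (M * C).det = 0 := by
    refine det_mul_eq_zero_of_minors M C fun σ => ?_
    have : M.submatrix id σ = (jac (Sum.elim p ζ) σ).map mk := by ext a b; simp [hM, jac]
    rw [this, ← AlgHom.mapMatrix_apply, ← AlgHom.map_det]
    exact hker.2 (hIP (hmem.2 fun x hx => hdep x hx σ))
  have h1 : M * C = Matrix.fromBlocks ((jac p τ).map mk) 0
      (Matrix.of fun l b => mk (pderiv (τ b) (ζ l))) 1 := by
    ext a b
    rcases a with a | a <;> rcases b with b | b <;>
      simp [hM, hC, Matrix.mul_apply, jac, hv, hvζ, Matrix.one_apply]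
  rw [h1, Matrix.det_fromBlocks_zero₁₂, Matrix.det_one, mul_one, ← AlgHom.mapMatrix_apply,
    ← AlgHom.map_det] at h0
  exact Set.disjoint_left.1 hPS (hker.1 h0) ⟨1, 1, one_ne_zero, by simp [hδdef]⟩

end

end Vale.Agent.P274.Full.Pieces
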