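import Vale.Agent.P274.Full.Pieces.Tree
import Vale.Agent.P274.Full.Tool.Map
import Mathlib.Topology.Algebra.Module.FiniteDimension
import Mathlib.LinearAlgebra.Matrix.ToLin

/-!
Real coordinates on complex space, and the genericity given by a nonzero minor.
-/

open MvPolynomial Metric Set Filter Topology Matrix
open scoped Classical

namespace Vale.Agent.P274.Full.Pieces

noncomputable section

variable {N n m k c : ℕ}

/-- Real coordinates, as a linear equivalence. -/
def rcE (N : ℕ) : Cn N ≃L[ℝ] (Fin N ⊕ Fin N → ℝ) :=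
  LinearEquiv.toContinuousLinearEquiv
    { toFun := rc
      invFun := fun y => WithLp.toLp 2 fun i => (⟨y (.inl i), y (.inr i)⟩ : ℂ)
      map_add' := fun z w => funext fun i => by rcases i with i | i <;> simp [rc]
      map_smul' := fun t z => funext fun i => by rcases i with i | i <;> simp [rc]
      left_inv := fun z => PiLp.ext fun i => by simp [rc]
      right_inv := fun y => funext fun i => by rcases i with i | i <;> simp [rc] }

@[simp] theorem rcE_apply (z : Cn N) : rcE N z = rc z := rfl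

@[simp] theorem rcE_symm_rc (z : Cn N) : (rcE N).symm (rc z) = z := (rcE N).symm_apply_apply z

theorem rcE_symm_apply (y : Fin N ⊕ Fin N → ℝ) (i : Fin N) :
    (rcE N).symm y i = (⟨y (.inl i), y (.inr i)⟩ : ℂ) := rfl

/-- The imaginary part, as a linear map. -/
def ivL (k : ℕ) : Cn k →L[ℝ] Rn k :=
  LinearMap.toContinuousLinearMap
    { toFun := iv
      map_add' := fun z w => PiLp.ext fun i => by simp [iv]
      map_smul' := fun t z => PiLp.ext fun i => by simp [iv] }

@[simp] theorem ivL_apply (w : Cn k) : ivL k w = iv w := rfl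

/-- The real part, as a linear map. -/
def rvL (k : ℕ) : Cn k →L[ℝ] Rn k :=
  LinearMap.toContinuousLinearMap
    { toFun := rv
      map_add' := fun z w => PiLp.ext fun i => by simp [rv]
      map_smul' := fun t z => PiLp.ext fun i => by simp [rv] }

@[simp] theorem rvL_apply (w : Cn k) : rvL k w = rv w := rfl

theorem mkC_rv_iv (w : Cn k) : mkC (rv w) (iv w) = w := PiLp.ext fun i => by simp [mkC, rv, iv]

/-- An affine real function is a polynomial. -/
theorem exists_poly_affine {κ : Type} [Fintype κ] (l : (κ → ℝ) →L[ℝ] ℝ) (b : ℝ) :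
    ∃ q : MvPolynomial κ ℝ, ∀ y, eval y q = l y + b := by
  refine ⟨∑ i, MvPolynomial.C (l (Pi.single i 1)) * X i + MvPolynomial.C b, fun y => ?_⟩
  have hy : y = ∑ i, y i • (Pi.single i (1 : ℝ) : κ → ℝ) := by
    funext j; simp [Finset.sum_apply, Pi.single_apply]
  conv_rhs => rw [hy]
  simp [map_sum, mul_comm]

/-- Complexification of a real polynomial. -/
abbrev cx {κ : Type} (f : MvPolynomial κ ℝ) : MvPolynomial κ ℂ :=
  MvPolynomial.map Complex.ofRealHom f

/-- A real point as a complex one. -/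
abbrev cpt {κ : Type} (x : κ → ℝ) : κ → ℂ := fun i => (x i : ℂ)

theorem eval_cx {κ : Type} (f : MvPolynomial κ ℝ) (x : κ → ℝ) :
    eval (cpt x) (cx f) = (eval x f : ℂ) := by
  induction f using MvPolynomial.induction_on with
  | C a => simp [cx]
  | add p q hp hq => simp [cx] at *; simp [hp, hq]
  | mul_X p i hp => simp [cx] at *; simp [hp]

/-- The coordinates of a complex linear map, as polynomials in the real coordinates. -/
def lin (L : Cn N →L[ℂ] Cn n) (l : Fin n) : MvPolynomial (Fin N ⊕ Fin N) ℂ :=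
  ∑ i, MvPolynomial.C (L (EuclideanSpace.single i 1) l) *
    (X (.inl i) + MvPolynomial.C Complex.I * X (.inr i))

theorem eval_lin (L : Cn N →L[ℂ] Cn n) (l : Fin n) (a : Fin N ⊕ Fin N → ℂ) :
    eval a (lin L l)
      = L (WithLp.toLp 2 fun i => a (.inl i) + Complex.I * a (.inr i)) l := by
  set v : Cn N := WithLp.toLp 2 fun i => a (.inl i) + Complex.I * a (.inr i) with hv
  have e : v = ∑ i, v i • (EuclideanSpace.single i (1 : ℂ) : Cn N) :=
    PiLp.ext fun j => by simp [Pi.single_apply, Finset.sum_apply]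
  conv_rhs => rw [e]
  simp [lin, map_sum, hv, mul_comm]

theorem eval_lin_cpt (L : Cn N →L[ℂ] Cn n) (l : Fin n) (x : Fin N ⊕ Fin N → ℝ) :
    eval (cpt x) (lin L l) = L ((rcE N).symm x) l := by
  rw [eval_lin]
  refine congrArg (fun z : Cn n => z l) (congrArg L (PiLp.ext fun i => ?_))
  apply Complex.ext <;> simp [cpt, rcE_symm_apply]

theorem sum_pderiv_lin (L : Cn N →L[ℂ] Cn n) (l : Fin n) (x a : Fin N ⊕ Fin N → ℂ) :
    ∑ i, eval x (pderiv i (lin L l)) * a i = eval a (lin L l) := by
  simp [lin, map_sum, pderiv_X, Pi.single_apply, apply_ite (eval x), mul_add,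
    Finset.sum_add_distrib, mul_assoc]

/-- The differential of the equations. -/
def dPv {κ : Type} [Fintype κ] (p : Fin c → MvPolynomial κ ℝ) (x : κ → ℝ) :
    (κ → ℝ) →L[ℝ] (Fin c → ℝ) :=
  ContinuousLinearMap.pi fun a => dP (p a) x

theorem hasFDerivAt_eqs {κ : Type} [Fintype κ] (p : Fin c → MvPolynomial κ ℝ) (x : κ → ℝ) :
    HasFDerivAt (fun y a => eval y (p a)) (dPv p x) x :=
  hasFDerivAt_pi.2 fun a => hasFDerivAt_eval (p a) x

theorem contDiff_eqs {κ : Type} [Fintype κ] (p : Fin c → MvPolynomial κ ℝ) {r : ℕ∞} :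
    ContDiff ℝ r fun y a => eval y (p a) :=
  contDiff_pi.2 fun a => contDiff_eval (p a)

theorem dPv_surjective {κ : Type} [Fintype κ] {p : Fin c → MvPolynomial κ ℝ} {x : κ → ℝ}
    (hx : x ∈ regZero p) : Function.Surjective (dPv p x) := by
  obtain ⟨-, τ, hτ⟩ := hx
  intro b
  have hu : IsUnit ((jac p τ).map (eval x)) := by
    rw [Matrix.isUnit_iff_isUnit_det, isUnit_iff_ne_zero]
    rwa [← RingHom.mapMatrix_apply, ← RingHom.map_det]
  obtain ⟨u, hu⟩ := Matrix.mulVec_surjective_iff_isUnit.2 hu b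
  refine ⟨fun i => ∑ b', if τ b' = i then u b' else 0, funext fun a => ?_⟩
  rw [← hu]
  simp only [dPv, ContinuousLinearMap.coe_pi', dP_apply, Finset.mul_sum, mul_ite, mul_zero]
  rw [Finset.sum_comm]
  simp [Matrix.mulVec, dotProduct, jac]

/-- A nonzero maximal minor of the equations and the coordinates of `L` makes the images by `L`
of the tangent vectors span over `ℂ`. -/
theorem generic_of_minor (p : Fin c → MvPolynomial (Fin N ⊕ Fin N) ℝ) (L : Cn N →L[ℂ] Cn n)
    (x : Fin N ⊕ Fin N → ℝ) (σ : Fin c ⊕ Fin n → Fin N ⊕ Fin N)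
    (h : eval (cpt x) (jac (Sum.elim (fun a => cx (p a)) (lin L)) σ).det ≠ 0) (w : Cn n) :
    ∃ a b, dPv p x a = 0 ∧ dPv p x b = 0 ∧
      w = L ((rcE N).symm a) + Complex.I • L ((rcE N).symm b) := by
  have hu : IsUnit ((jac (Sum.elim (fun a => cx (p a)) (lin L)) σ).map (eval (cpt x))) := by
    rw [Matrix.isUnit_iff_isUnit_det, isUnit_iff_ne_zero]
    rwa [← RingHom.mapMatrix_apply, ← RingHom.map_det]
  obtain ⟨u, hu⟩ := Matrix.mulVec_surjective_iff_isUnit.2 hu (Sum.elim 0 fun l => w l)
  set v : Fin N ⊕ Fin N → ℂ := fun i => ∑ b, if σ b = i then u b else 0 with hv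
  have hrow : ∀ f, ∑ i, eval (cpt x) (pderiv i f) * v i
      = ∑ b, eval (cpt x) (pderiv (σ b) f) * u b := fun f => by
    simp only [hv, Finset.mul_sum, mul_ite, mul_zero]
    rw [Finset.sum_comm]
    simp
  have h1 : ∀ a, ∑ i, (eval x (pderiv i (p a)) : ℂ) * v i = 0 := fun a => by
    have e := congrFun hu (.inl a)
    simp only [Matrix.mulVec, dotProduct, Matrix.map_apply, jac, Matrix.of_apply, Sum.elim_inl,
      Pi.zero_apply] at e
    rw [← hrow] at e
    simpa only [cx, pderiv_map, eval_cx] using e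
  have h2 : ∀ l, eval v (lin L l) = w l := fun l => by
    have e := congrFun hu (.inr l)
    simp only [Matrix.mulVec, dotProduct, Matrix.map_apply, jac, Matrix.of_apply, Sum.elim_inr]
      at e
    rw [← hrow, sum_pderiv_lin] at e
    exact e
  refine ⟨fun i => (v i).re, fun i => (v i).im, funext fun a => ?_, funext fun a => ?_, ?_⟩
  · have := congrArg Complex.re (h1 a)
    simpa [dPv, dP_apply] using this
  · have := congrArg Complex.im (h1 a)
    simpa [dPv, dP_apply] using this
  · rw [← map_smul, ← map_add]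
    refine PiLp.ext fun l => ?_
    rw [← h2 l, eval_lin]
    refine congrArg (fun z : Cn n => z l) (congrArg L (PiLp.ext fun i => ?_))
    simp only [PiLp.add_apply, PiLp.smul_apply, rcE_symm_apply, smul_eq_mul]
    apply Complex.ext <;> simp [add_comm, sub_eq_add_neg]

end

end Vale.Agent.P274.Full.Pieces
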