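import Vale.Agent.P274.Full.Pieces.Coords
import Vale.Agent.P274.Full.Pieces.Adapt
import Vale.Agent.P274.Full.Patch.Smooth
import Mathlib.Analysis.Calculus.Implicit
import Mathlib.Analysis.Calculus.FDeriv.RestrictScalars

/-!
A centred piece at a generic regular point of a real algebraic set inside a variety.
-/

open MvPolynomial Metric Set Filter Topology Matrix Function
open scoped Classical

namespace Vale.Agent.P274.Full.Pieces

noncomputable section

variable {N n c : ℕ} {D : CDom N}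

/-- The equations with `z` near `φ.ψ 0` are tangent to the variety. -/
theorem tangent_range (φ : Chart D n 0) (p : Fin c → MvPolynomial (Fin N ⊕ Fin N) ℝ)
    (hx : rc (φ.ψ 0) ∈ regZero p)
    (hM : ∀ᶠ y in 𝓝 (rc (φ.ψ 0)), (∀ a, eval y (p a) = 0) → (rcE N).symm y ∈ D.Z)
    {v : Fin N ⊕ Fin N → ℝ} (hv : dPv p (rc (φ.ψ 0)) v = 0) :
    ∃ u, fderiv ℂ φ.ψ 0 u = (rcE N).symm v := by
  set x₀ := rc (φ.ψ 0) with hx₀
  have hsd : HasStrictFDerivAt (fun y a => eval y (p a)) (dPv p x₀) x₀ :=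
    (contDiff_eqs p (r := 1)).contDiffAt.hasStrictFDerivAt' (hasFDerivAt_eqs p x₀) (by simp)
  have hf' : (dPv p x₀).range = ⊤ := LinearMap.range_eq_top.2 (dPv_surjective hx)
  have hp0 : (fun a => eval x₀ (p a)) = 0 := funext hx.1
  set im : (dPv p x₀).ker → (Fin N ⊕ Fin N → ℝ) :=
    hsd.implicitFunction (fun y a => eval y (p a)) (dPv p x₀) hf' (fun a => eval x₀ (p a)) with him
  have him0 : im 0 = x₀ := hsd.implicitFunction_apply_image hf'
  have hd : HasStrictFDerivAt im (dPv p x₀).ker.subtypeL 0 := hsd.to_implicitFunction hf'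
  have hev : ∀ᶠ s in 𝓝 (0 : (dPv p x₀).ker), (∀ a, eval (im s) (p a) = 0) := by
    have h1 : Tendsto (fun s : (dPv p x₀).ker => ((fun a => eval x₀ (p a)), s)) (𝓝 0)
        (𝓝 ((fun a => eval x₀ (p a)), 0)) :=
      (continuous_const.prodMk continuous_id).tendsto _
    filter_upwards [h1.eventually (hsd.map_implicitFunction_eq hf')] with s hs a
    exact (congrFun hs a).trans (hx.1 a)
  have hc : ContinuousAt im 0 := hd.continuousAt
  set Y : (dPv p x₀).ker → Cn N := fun s => (rcE N).symm (im s) with hY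
  have hY0 : Y 0 = φ.ψ 0 := by rw [hY]; simp only; rw [him0, hx₀, rcE_symm_rc]
  have hYc : ContinuousAt Y 0 := (rcE N).symm.continuous.continuousAt.comp hc
  have hB0 : φ.ψ 0 ∈ φ.B := (φ.maps_ψ 0 φ.zero_mem).2
  have heq : (fun s => φ.ψ (φ.π (Y s))) =ᶠ[𝓝 0] Y := by
    filter_upwards [hev, hc.eventually (him0 ▸ hM),
      hYc.eventually (hY0 ▸ φ.isOpen_B.eventually_mem hB0)] with s h1 h2 h3
    exact φ.ψ_π _ ⟨h2 h1, h3⟩
  have hdY : HasFDerivAt Y
      (((rcE N).symm : (Fin N ⊕ Fin N → ℝ) →L[ℝ] Cn N).comp (dPv p x₀).ker.subtypeL) 0 :=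
    ((rcE N).symm.hasFDerivAt).comp 0 hd.hasFDerivAt
  have hπ0 : φ.π (φ.ψ 0) = 0 := φ.π_ψ 0 φ.zero_mem
  have hdπ : HasFDerivAt φ.π (fderiv ℂ φ.π (φ.ψ 0)) (φ.ψ 0) :=
    (φ.diff_π.differentiableAt (φ.isOpen_B.mem_nhds hB0)).hasFDerivAt
  have hdψ : HasFDerivAt φ.ψ (fderiv ℂ φ.ψ 0) 0 :=
    (φ.diff_ψ.differentiableAt (φ.isOpen_W.mem_nhds φ.zero_mem)).hasFDerivAt
  have hdψπ : HasFDerivAt (fun z => φ.ψ (φ.π z))
      ((fderiv ℂ φ.ψ 0).comp (fderiv ℂ φ.π (φ.ψ 0))) (φ.ψ 0) :=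
    HasFDerivAt.comp (φ.ψ 0) (by rw [hπ0]; exact hdψ) hdπ
  have hcomp := (hY0.symm ▸ hdψπ.restrictScalars ℝ :
    HasFDerivAt (fun z => φ.ψ (φ.π z)) _ (Y 0)).comp 0 hdY
  have e := (hcomp.congr_of_eventuallyEq heq.symm).unique hdY
  refine ⟨fderiv ℂ φ.π (φ.ψ 0) ((rcE N).symm v), ?_⟩
  simpa [hY0] using DFunLike.congr_fun e ⟨v, hv⟩

/-- The coordinates `(z, u, v)` of a point of the model space. -/
def modCoord (m k : ℕ) : Mod m k →L[ℝ] (((Fin m ⊕ Fin m) ⊕ Fin k) ⊕ Fin k → ℝ) :=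
  LinearMap.toContinuousLinearMap
    { toFun := fun p => Sum.elim (rcBase (p.1, rv p.2)) fun i => (p.2 i).im
      map_add' := fun p q => funext fun i => by
        rcases i with ((i | i) | i) | i <;> simp [rcBase, rc, rv]
      map_smul' := fun t p => funext fun i => by
        rcases i with ((i | i) | i) | i <;> simp [rcBase, rc, rv] }

/-- `rcMod`, as a linear map. -/
def modCoord' (m k : ℕ) : Mod m k →L[ℝ] ((Fin m ⊕ Fin m) ⊕ (Fin k ⊕ Fin k) → ℝ) :=
  LinearMap.toContinuousLinearMap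
    { toFun := rcMod
      map_add' := fun p q => funext fun i => by
        rcases i with (i | i) | (i | i) <;> simp [rcMod, rc]
      map_smul' := fun t p => funext fun i => by
        rcases i with (i | i) | (i | i) <;> simp [rcMod, rc] }

/-- A semialgebraic set has semialgebraic image by an affine map. -/
theorem sa_affine_image (hp : SAProjStmt) {ι κ : Type} [Fintype ι] [Fintype κ] {E : Set (ι → ℝ)}
    (hE : SA E) (f : (ι → ℝ) →L[ℝ] (κ → ℝ)) (b : κ → ℝ) : SA ((fun y => f y + b) '' E) := by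
  choose q hq using fun j => exists_poly_affine ((ContinuousLinearMap.proj j).comp f) (b j)
  exact (((SAMap.poly hE q).congr (g := fun y => f y + b) fun y _ => funext fun j => by
    simp [hq]).image hp hE subset_rfl)

theorem sa_box {ι : Type} [Fintype ι] (x : ι → ℝ) {r : ℝ} (hr : 0 < r) : SA (ball x r) := by
  refine (SA.all fun i => SA.lt ((X i - MvPolynomial.C (x i)) ^ 2)
    (MvPolynomial.C (r ^ 2))).of_eq ?_
  ext y
  simp only [mem_ofPred_eq, mem_ball, dist_pi_lt_iff hr, Real.dist_eq, map_pow, map_sub, eval_X,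
    eval_C, sq_lt_sq, abs_of_pos hr]

/-- The part over a product of balls is semialgebraic. -/
theorem sa_base_ball {ι : Type} [Fintype ι] {m k : ℕ} (f : (ι → ℝ) →L[ℝ] Cn m × Rn k)
    (b : Cn m × Rn k) {r : ℝ} (hr : 0 < r) : SA {y | f y + b ∈ ball (0 : Cn m × Rn k) r} := by
  have e1 : ∀ i : Fin m ⊕ Fin m, ∃ q : MvPolynomial ι ℝ, ∀ y, eval y q = rc (f y + b).1 i :=
    fun i => by
      obtain ⟨q, hq⟩ := exists_poly_affine ((((ContinuousLinearMap.proj i :
        (Fin m ⊕ Fin m → ℝ) →L[ℝ] ℝ)).comp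
        (rcE m : Cn m →L[ℝ] (Fin m ⊕ Fin m → ℝ))).comp ((ContinuousLinearMap.fst ℝ _ _).comp f)) (rc b.1 i)
      exact ⟨q, fun y => by rw [hq]; rcases i with i | i <;> simp [rc]⟩
  have e2 : ∀ i : Fin k, ∃ q : MvPolynomial ι ℝ, ∀ y, eval y q = (f y + b).2 i := fun i => by
    obtain ⟨q, hq⟩ := exists_poly_affine (((EuclideanSpace.proj i : Rn k →L[ℝ] ℝ)).comp
      ((ContinuousLinearMap.snd ℝ _ _).comp f)) (b.2 i)
    exact ⟨q, fun y => by rw [hq]; simp⟩
  choose q1 hq1 using e1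
  choose q2 hq2 using e2
  refine ((SA.lt (∑ i, (q1 (.inl i) ^ 2 + q1 (.inr i) ^ 2)) (MvPolynomial.C (r ^ 2))).inter
    (SA.lt (∑ i, q2 i ^ 2) (MvPolynomial.C (r ^ 2)))).of_eq ?_
  ext y
  simp only [mem_inter_iff, mem_ofPred_eq, map_sum, map_add, map_pow, hq1, hq2, eval_C,
    mem_ball_zero_iff, Prod.norm_def, max_lt_iff]
  have h : ∀ {a : ℝ}, 0 ≤ a → (a ^ 2 < r ^ 2 ↔ a < r) := fun ha =>
    pow_lt_pow_iff_left₀ ha hr.le two_ne_zero
  rw [← h (norm_nonneg (f y + b).1), ← h (norm_nonneg (f y + b).2), EuclideanSpace.norm_sq_eq,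
    EuclideanSpace.norm_sq_eq]
  simp [Complex.sq_norm, Complex.normSq_apply, rc, ← sq]

/-- A centred piece at a regular point of `p = 0` in the variety where the projection by `L` of
the tangent space is generic. -/
theorem exists_loc (hp : SAProjStmt) (φ : Chart D n 0)
    (p : Fin c → MvPolynomial (Fin N ⊕ Fin N) ℝ) (hx : rc (φ.ψ 0) ∈ regZero p)
    (hM : ∀ᶠ y in 𝓝 (rc (φ.ψ 0)), (∀ a, eval y (p a) = 0) → (rcE N).symm y ∈ D.Z)
    (L : Cn N →L[ℂ] Cn n)
    (hgen : ∀ w, ∃ a b, dPv p (rc (φ.ψ 0)) a = 0 ∧ dPv p (rc (φ.ψ 0)) b = 0 ∧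
      w = L ((rcE N).symm a) + Complex.I • L ((rcE N).symm b))
    (hnot : ¬ ∀ᶠ z in 𝓝 (φ.ψ 0), z ∈ D.Z → ∀ a, eval (rc z) (p a) = 0)
    {V : Set (Cn N)} (hV : V ∈ 𝓝 (φ.ψ 0)) :
    ∃ (m k : ℕ) (P : Loc D m k) (O : Set (Cn N)), m + k = n ∧ IsOpen O ∧ φ.ψ 0 ∈ O ∧
      (∀ z ∈ O, (∀ a, eval (rc z) (p a) = 0) → z ∈ P.points) ∧
      P.points ⊆ V ∩ {z | ∀ a, eval (rc z) (p a) = 0} := by
  set z₀ := φ.ψ 0 with hz₀
  set x₀ := rc z₀ with hx₀
  set dψ := fderiv ℂ φ.ψ 0 with hdψdef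
  -- `L` is bijective on the tangent space of the variety
  have hLbij : Function.Bijective (L.comp dψ) := by
    have hs : Function.Surjective (L.comp dψ) := fun w => by
      obtain ⟨a, b, ha, hb, rfl⟩ := hgen w
      obtain ⟨u, hu⟩ := tangent_range φ p hx hM ha
      obtain ⟨u', hu'⟩ := tangent_range φ p hx hM hb
      exact ⟨u + Complex.I • u', by simp [hdψdef, hu, hu']⟩
    refine ⟨?_, hs⟩
    exact (LinearMap.injective_iff_surjective_of_finrank_eq_finrank (f := (L.comp dψ).toLinearMap)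
      (by simp)).2 hs
  set Li : (Fin N ⊕ Fin N → ℝ) →L[ℝ] Cn n :=
    (L.restrictScalars ℝ).comp ((rcE N).symm : _ →L[ℝ] Cn N) with hLi
  set T' : Submodule ℝ (Cn n) := (dPv p x₀).ker.map Li.toLinearMap with hT'
  obtain ⟨m, k, Φ, hmk, hΦ⟩ := exists_adapted T' fun w => by
    obtain ⟨a, b, ha, hb, rfl⟩ := hgen w
    exact ⟨_, Submodule.mem_map_of_mem (f := Li.toLinearMap) (LinearMap.mem_ker.2 ha), _,
      Submodule.mem_map_of_mem (f := Li.toLinearMap) (LinearMap.mem_ker.2 hb), rfl⟩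
  set A : Cn N →L[ℂ] Mod m k := (Φ.symm : Cn n →L[ℂ] Mod m k).comp L with hA
  set pr : Cn N → Mod m k := fun z => A (z - z₀) with hpr
  have hprd : ∀ z, HasFDerivAt pr A z := fun z => by
    have := A.hasFDerivAt.comp z ((hasFDerivAt_id (𝕜 := ℂ) z).sub_const z₀)
    exact this
  have hprc : Continuous pr := A.continuous.comp (continuous_id.sub continuous_const)
  -- the chart
  have hdψ : HasFDerivAt φ.ψ dψ 0 :=
    (φ.diff_ψ.differentiableAt (φ.isOpen_W.mem_nhds φ.zero_mem)).hasFDerivAt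
  have hf3 : ContDiffAt ℂ 3 (fun x => pr (φ.ψ x)) 0 :=
    (PatchAux.contDiffOn_of_holo φ.isOpen_W (((differentiableOn_univ.2 fun z => (hprd z).differentiableAt)).comp
      φ.diff_ψ (mapsTo_univ _ _)) 3).contDiffAt (φ.isOpen_W.mem_nhds φ.zero_mem)
  have hAψ : Function.Bijective (A.comp dψ) :=
    Φ.symm.bijective.comp hLbij
  obtain ⟨e, r, A', hr, hes, hee, hetgt, hesymm, hecd, -, -, -⟩ :=
    exists_inverse (fun x => pr (φ.ψ x)) 0 (A.comp dψ) hf3 ((hprd _).comp 0 hdψ) hAψ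
  have hpr0 : pr z₀ = 0 := by simp [hpr]
  simp only [← hz₀, hpr0] at hetgt hesymm hecd
  have hB0 : z₀ ∈ φ.B := (φ.maps_ψ 0 φ.zero_mem).2
  have hπ0 : φ.π z₀ = 0 := φ.π_ψ 0 φ.zero_mem
  have hπc : ContinuousAt φ.π z₀ := φ.diff_π.continuousOn.continuousAt (φ.isOpen_B.mem_nhds hB0)
  obtain ⟨ρ, hρ, hρsub⟩ := Metric.mem_nhds_iff.1
    (show φ.B ∩ (φ.π ⁻¹' e.source ∩ pr ⁻¹' ball 0 r) ∈ 𝓝 z₀ from
      inter_mem (φ.isOpen_B.mem_nhds hB0) (inter_mem
        (hπc.preimage_mem_nhds (by rw [hπ0]; exact e.open_source.mem_nhds hes))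
        (hprc.continuousAt.preimage_mem_nhds (by rw [hpr0]; exact ball_mem_nhds 0 hr))))
  set Wt := ball (0 : Mod m k) r ∩ e.symm ⁻¹' (φ.W ∩ φ.ψ ⁻¹' ball z₀ ρ) with hWt
  have hmaps : ∀ z ∈ D.Z ∩ ball z₀ ρ, pr z ∈ Wt ∧ φ.ψ (e.symm (pr z)) = z := fun z hz => by
    obtain ⟨hzB, hzs, hzr⟩ := hρsub hz.2
    have h1 : e (φ.π z) = pr z := by rw [hee, φ.ψ_π z ⟨hz.1, hzB⟩]
    have h2 : e.symm (pr z) = φ.π z := by rw [← h1, e.left_inv hzs]
    refine ⟨⟨hzr, ?_⟩, by rw [h2, φ.ψ_π z ⟨hz.1, hzB⟩]⟩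
    rw [Set.mem_preimage, h2]
    exact ⟨φ.maps_π z ⟨hz.1, hzB⟩, by rw [Set.mem_preimage, φ.ψ_π z ⟨hz.1, hzB⟩]; exact hz.2⟩
  let C : Chart D m k :=
    { π := pr
      ψ := fun w => φ.ψ (e.symm w)
      W := Wt
      B := ball z₀ ρ
      isOpen_W := hecd.continuousOn.isOpen_inter_preimage isOpen_ball
        (φ.diff_ψ.continuousOn.isOpen_inter_preimage φ.isOpen_W isOpen_ball)
      isOpen_B := isOpen_ball
      zero_mem := ⟨mem_ball_self hr, by
        rw [Set.mem_preimage, hesymm]; exact ⟨φ.zero_mem, mem_ball_self hρ⟩⟩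
      diff_π := fun z _ => (hprd z).differentiableAt.differentiableWithinAt
      diff_ψ := φ.diff_ψ.comp ((hecd.differentiableOn (by norm_num)).mono inter_subset_left)
        fun w hw => hw.2.1
      maps_ψ := fun w hw => ⟨(φ.maps_ψ _ hw.2.1).1, hw.2.2⟩
      maps_π := fun z hz => (hmaps z hz).1
      π_ψ := fun w hw => by
        show pr (φ.ψ (e.symm w)) = w
        rw [← hee, e.right_inv (hetgt hw.1)]
      ψ_π := fun z hz => (hmaps z hz).2 }
  -- the graph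
  set E1 : (Fin N ⊕ Fin N → ℝ) →L[ℝ] Mod m k :=
    (A.restrictScalars ℝ).comp ((rcE N).symm : _ →L[ℝ] Cn N) with hE1
  set base : Mod m k →L[ℝ] Cn m × Rn k :=
    (ContinuousLinearMap.fst ℝ _ _).prod ((rvL k).comp (ContinuousLinearMap.snd ℝ _ _)) with hbase
  set G : (Fin N ⊕ Fin N → ℝ) → (Cn m × Rn k) × (Fin c → ℝ) :=
    fun y => (base (E1 y + -A z₀), fun a => eval y (p a)) with hG
  have hpre : ∀ y, pr ((rcE N).symm y) = E1 y + -A z₀ := fun y => by
    simp [hpr, hE1, sub_eq_add_neg]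
  have hG3 : ContDiff ℝ 3 G :=
    (base.contDiff.comp (E1.contDiff.add contDiff_const)).prodMk (contDiff_eqs p)
  have hGd : HasFDerivAt G ((base.comp E1).prod (dPv p x₀)) x₀ :=
    (base.hasFDerivAt.comp x₀ (E1.hasFDerivAt.add_const _)).prodMk (hasFDerivAt_eqs p x₀)
  have hAT : ∀ t, dPv p x₀ t = 0 → iv (E1 t).2 = 0 := fun t ht => by
    refine (hΦ _).1 ?_
    show Φ (Φ.symm (L ((rcE N).symm t))) ∈ T'
    rw [Φ.apply_symm_apply]
    exact Submodule.mem_map_of_mem (f := Li.toLinearMap) (LinearMap.mem_ker.2 ht)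
  have hGb : Function.Bijective ((base.comp E1).prod (dPv p x₀)) := by
    constructor
    · refine (injective_iff_map_eq_zero _).2 fun v hv => ?_
      obtain ⟨hv1, hv2⟩ := Prod.ext_iff.1 hv
      obtain ⟨h1, h2⟩ := Prod.ext_iff.1 hv1
      simp only [hbase, ContinuousLinearMap.comp_apply, ContinuousLinearMap.prod_apply,
        ContinuousLinearMap.coe_fst', ContinuousLinearMap.coe_snd', rvL_apply, Prod.fst_zero,
        Prod.snd_zero] at h1 h2
      have h3 := hAT v hv2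
      have h4 : E1 v = 0 := Prod.ext h1 (by
        rw [← mkC_rv_iv (E1 v).2, h2, h3]; exact PiLp.ext fun i => by simp [mkC]; rfl)
      have h5 : L ((rcE N).symm v) = 0 := Φ.symm.injective (by rw [map_zero]; exact h4)
      obtain ⟨u, hu⟩ := tangent_range φ p hx hM (v := v) hv2
      have hu0 : u = 0 := hLbij.1 (by
        show L (dψ u) = L (dψ 0)
        rw [map_zero, map_zero, hdψdef, hu, h5])
      have : (rcE N).symm v = 0 := by rw [← hu, hu0, map_zero]
      simpa using this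
    · rintro ⟨a, b⟩
      obtain ⟨v0, hv0⟩ := dPv_surjective hx b
      set d := a - base (E1 v0) with hd
      have hq : Φ (d.1, mkC d.2 0) ∈ T' := (hΦ _).2 (PiLp.ext fun i => by simp [iv, mkC])
      obtain ⟨t, ht, htq⟩ := Submodule.mem_map.1 hq
      have hEt : E1 t = (d.1, mkC d.2 0) := Φ.injective (by
        show Φ (Φ.symm (L ((rcE N).symm t))) = _
        rw [Φ.apply_symm_apply]; exact htq)
      refine ⟨t + v0, Prod.ext ?_ ?_⟩
      · show base (E1 (t + v0)) = a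
        rw [map_add, map_add, hEt]
        have : base (d.1, mkC d.2 0) = d := Prod.ext rfl (PiLp.ext fun i => by simp [hbase, rv, mkC])
        rw [this, hd, sub_add_cancel]
      · show dPv p x₀ (t + v0) = b
        rw [map_add, show dPv p x₀ t = 0 from LinearMap.mem_ker.1 ht, zero_add, hv0]
  obtain ⟨g, r', G', hr', hgs, hge, hgtgt, hgsymm, hgcd, hgd, hG'1, hG'2⟩ :=
    exists_inverse G x₀ _ hG3.contDiffAt hGd hGb
  have hG0 : G x₀ = 0 := by
    refine Prod.ext ?_ (funext hx.1)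
    show base (E1 x₀ + -A z₀) = 0
    rw [← hpre, hx₀, rcE_symm_rc, hpr0, map_zero]
  rw [hG0] at hgtgt hgsymm hgcd hgd
  obtain ⟨ρ', hρ', hboxsub⟩ := Metric.mem_nhds_iff.1
    (show {y | ((∀ a, eval y (p a) = 0) → (rcE N).symm y ∈ D.Z) ∧ y ∈ g.source ∧
        (rcE N).symm y ∈ ball z₀ ρ ∩ V} ∈ 𝓝 x₀ from
      hM.and ((g.open_source.eventually_mem hgs).and
        ((rcE N).symm.continuous.continuousAt.preimage_mem_nhds
          (by rw [hx₀, rcE_symm_rc]; exact inter_mem (ball_mem_nhds z₀ hρ) hV))))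
  set y' : Cn m × Rn k → (Fin N ⊕ Fin N → ℝ) := fun s => g.symm (s, 0) with hy'
  set h : Cn m × Rn k → Rn k := fun s => iv (pr ((rcE N).symm (y' s))).2 with hh
  have hin : Continuous fun s : Cn m × Rn k => (s, (0 : Fin c → ℝ)) := by fun_prop
  have hy'c : ContDiffOn ℝ 3 y' (ball 0 r') := hgcd.comp
    ((contDiff_id.prodMk contDiff_const).contDiffOn) fun s hs => by
      simpa [Prod.norm_def, hr'] using hs
  have hy'0 : y' 0 = x₀ := hgsymm
  set ℓ : (Fin N ⊕ Fin N → ℝ) →L[ℝ] Rn k :=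
    (ivL k).comp ((ContinuousLinearMap.snd ℝ (Cn m) (Cn k)).comp E1) with hℓ
  have hh' : h = fun s => ℓ (y' s) + iv (-A z₀).2 := funext fun s => by
    simp only [hh, hℓ, hpre, ContinuousLinearMap.comp_apply, ContinuousLinearMap.coe_snd',
      ivL_apply, Prod.snd_add]
    exact (ivL k).map_add _ _
  have hhc : ContDiffOn ℝ 3 h (ball 0 r') := by
    rw [hh']; exact (ℓ.contDiff.comp_contDiffOn hy'c).add contDiffOn_const
  have hdh : fderiv ℝ h 0 = 0 := by
    have hy'd : HasFDerivAt y' (G'.comp (ContinuousLinearMap.inl ℝ _ _)) 0 :=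
      HasFDerivAt.comp (0 : Cn m × Rn k) hgd
        (ContinuousLinearMap.inl ℝ (Cn m × Rn k) (Fin c → ℝ)).hasFDerivAt
    have hd := (ℓ.hasFDerivAt.comp 0 hy'd).add_const (iv (-A z₀).2)
    rw [hh']
    refine hd.fderiv.trans (ContinuousLinearMap.ext fun s => ?_)
    show iv (E1 (G' (s, 0))).2 = 0
    exact hAT _ (congrArg Prod.snd (hG'2 (s, 0)))
  obtain ⟨rS, hrS, hSsub⟩ := Metric.mem_nhds_iff.1
    (show ball (0 : Cn m × Rn k) r' ∩ y' ⁻¹' ball x₀ ρ' ∩
        {s | ‖fderiv ℝ h s‖ < 1 / 4} ∈ 𝓝 0 from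
      inter_mem (inter_mem (ball_mem_nhds 0 hr')
        ((hy'c.continuousOn.continuousAt (ball_mem_nhds 0 hr')).preimage_mem_nhds
          (by rw [hy'0]; exact ball_mem_nhds x₀ hρ')))
        ((((hhc.continuousOn_fderiv_of_isOpen isOpen_ball (by norm_num)).continuousAt
          (ball_mem_nhds 0 hr')).norm).eventually_lt continuousAt_const
          (by rw [hdh, norm_zero]; norm_num)))
  -- points of the graph
  have hS1 : ∀ s ∈ ball (0 : Cn m × Rn k) rS, y' s ∈ ball x₀ ρ' ∧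
      (∀ a, eval (y' s) (p a) = 0) ∧ base (pr ((rcE N).symm (y' s))) = s := fun s hs => by
    obtain ⟨⟨hs1, hs2⟩, -⟩ := hSsub hs
    have hmem : ((s, 0) : (Cn m × Rn k) × (Fin c → ℝ)) ∈ ball 0 r' := by
      simpa [Prod.norm_def, hr'] using hs1
    have e1 : G (y' s) = (s, 0) := by rw [← hge]; exact g.right_inv (hgtgt hmem)
    refine ⟨hs2, fun a => congrFun (congrArg Prod.snd e1) a, ?_⟩
    rw [hpre]; exact congrArg Prod.fst e1
  have hlift : ∀ s ∈ ball (0 : Cn m × Rn k) rS, lift h s 0 = pr ((rcE N).symm (y' s)) :=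
    fun s hs => by
      have := (hS1 s hs).2.2
      simp only [hbase, ContinuousLinearMap.prod_apply, ContinuousLinearMap.coe_fst',
        ContinuousLinearMap.comp_apply, ContinuousLinearMap.coe_snd', rvL_apply] at this
      obtain ⟨h1, h2⟩ := Prod.ext_iff.1 this
      simp only at h1 h2
      refine Prod.ext h1.symm ?_
      show mkC s.2 (h s + 0) = _
      rw [add_zero, ← h2]
      exact mkC_rv_iv _
  have hZB : ∀ s ∈ ball (0 : Cn m × Rn k) rS, (rcE N).symm (y' s) ∈ D.Z ∩ ball z₀ ρ :=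
    fun s hs => by
      obtain ⟨h1, h2, -⟩ := hS1 s hs
      exact ⟨(hboxsub h1).1 h2, (hboxsub h1).2.2.1⟩
  have huniq : ∀ y ∈ ball x₀ ρ', (∀ a, eval y (p a) = 0) →
      y' (base (E1 y + -A z₀)) = y := fun y hy hp0 => by
    show g.symm (base (E1 y + -A z₀), 0) = y
    have : G y = (base (E1 y + -A z₀), 0) := Prod.ext rfl (funext hp0)
    rw [← this, ← hge, g.left_inv (hboxsub hy).2.1]
  -- semialgebraicity
  have hbox := sa_box x₀ hρ'
  have hSA := sa_base_ball (base.comp E1) (base (-A z₀)) hrS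
  have hgraph : SA {y : (((Fin m ⊕ Fin m) ⊕ Fin k) ⊕ Fin k) → ℝ |
      ∃ x ∈ ball (0 : Cn m × Rn k) rS, y = Sum.elim (rcBase x) fun i => h x i} := by
    refine (sa_affine_image hp ((hbox.inter (SA.all fun a => SA.eq_zero (p a))).inter hSA)
      ((modCoord m k).comp E1) (modCoord m k (-A z₀))).of_eq ?_
    ext w
    have hval : ∀ s ∈ ball (0 : Cn m × Rn k) rS,
        (modCoord m k).comp E1 (y' s) + modCoord m k (-A z₀)
          = Sum.elim (rcBase s) fun i => h s i := fun s hs => by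
      rw [ContinuousLinearMap.comp_apply, ← map_add, ← hpre, ← hlift s hs]
      funext i
      rcases i with (i | i) | i <;>
        simp [modCoord, lift, rcBase, rv, mkC]
    constructor
    · rintro ⟨y, ⟨⟨hy, hy0⟩, hyS⟩, rfl⟩
      have hyS' : base (E1 y + -A z₀) ∈ ball (0 : Cn m × Rn k) rS := by
        rw [map_add]; exact hyS
      refine ⟨_, hyS', ?_⟩
      rw [← hval _ hyS', huniq y hy hy0]
    · rintro ⟨s, hs, rfl⟩
      obtain ⟨h1, h2, h3⟩ := hS1 s hs
      refine ⟨y' s, ⟨⟨h1, h2⟩, ?_⟩, hval s hs⟩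
      rw [mem_ofPred_eq, ContinuousLinearMap.comp_apply, ← map_add, ← hpre, h3]; exact hs
  have hUc : SA (rcMod '' {w : Mod m k | w ∈ C.W ∧ C.ψ w ∈ D.U}) := by
    choose q hq using fun i : Fin N ⊕ Fin N => exists_poly_affine (ContinuousLinearMap.proj i) (-x₀ i)
    have hball : SA {y | (rcE N).symm y ∈ ball z₀ ρ} := by
      refine (SA.lt (∑ i, q i ^ 2) (MvPolynomial.C (ρ ^ 2))).of_eq ?_
      ext y
      simp only [mem_ofPred_eq, map_sum, map_pow, eval_C, hq, mem_ball, dist_eq_norm]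
      rw [← pow_lt_pow_iff_left₀ (norm_nonneg ((rcE N).symm y - z₀)) hρ.le two_ne_zero,
        EuclideanSpace.norm_sq_eq]
      simp only [Fintype.sum_sum_type, Complex.sq_norm, Complex.normSq_apply, PiLp.sub_apply,
        Complex.sub_re, Complex.sub_im]
      simp only [hx₀, rc, ← Finset.sum_add_distrib, rcE_symm_apply, Sum.elim_inl, Sum.elim_inr,
        ContinuousLinearMap.proj_apply, sub_eq_add_neg, sq]
    refine (sa_affine_image hp (D.sa_U.inter hball) ((modCoord' m k).comp E1)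
      (modCoord' m k (-A z₀))).of_eq ?_
    ext w
    have hval : ∀ z, (modCoord' m k).comp E1 (rc z) + modCoord' m k (-A z₀) = rcMod (pr z) :=
      fun z => by
        rw [ContinuousLinearMap.comp_apply, ← map_add, ← hpre, rcE_symm_rc]; rfl
    constructor
    · rintro ⟨y, ⟨⟨z, hz, rfl⟩, hzB⟩, rfl⟩
      simp only [mem_ofPred_eq, rcE_symm_rc] at hzB
      have hzZ : z ∈ D.Z := (D.U_eq ▸ hz : z ∈ D.Z ∩ D.O).1
      obtain ⟨h1, h2⟩ := hmaps z ⟨hzZ, hzB⟩
      refine ⟨pr z, ⟨h1, ?_⟩, (hval z).symm⟩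
      show φ.ψ (e.symm (pr z)) ∈ D.U
      rw [h2]; exact hz
    · rintro ⟨v, ⟨hv1, hv2⟩, rfl⟩
      refine ⟨rc (C.ψ v), ⟨⟨_, hv2, rfl⟩, ?_⟩, ?_⟩
      · simp only [mem_ofPred_eq, rcE_symm_rc]; exact (C.maps_ψ v hv1).2
      · show (modCoord' m k).comp E1 (rc (C.ψ v)) + _ = _
        rw [hval]; exact congrArg rcMod (C.π_ψ v hv1)
  -- assembly
  set O : Set (Cn N) := {z | rc z ∈ ball x₀ ρ' ∧ base (pr z) ∈ ball (0 : Cn m × Rn k) rS} with hO
  have hOo : IsOpen O := (isOpen_ball.preimage (rcE N).continuous).inter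
    (isOpen_ball.preimage (base.continuous.comp hprc))
  have hOz : z₀ ∈ O := ⟨mem_ball_self hρ', by simp [hpr0, hrS]⟩
  have hpts : ∀ z ∈ O, (∀ a, eval (rc z) (p a) = 0) →
      ∃ s ∈ ball (0 : Cn m × Rn k) rS, C.ψ (lift h s 0) = z := fun z hz hz0 => by
    have hu := huniq (rc z) hz.1 hz0
    rw [← hpre, rcE_symm_rc] at hu
    refine ⟨base (pr z), hz.2, ?_⟩
    rw [hlift _ hz.2, hu, rcE_symm_rc]
    refine C.ψ_π z ?_
    have := hZB _ hz.2
    rwa [hu, rcE_symm_rc] at this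
  have hk : 0 < k := by
    by_contra hk0
    obtain rfl : k = 0 := Nat.le_zero.1 (not_lt.1 hk0)
    refine hnot ?_
    filter_upwards [hOo.mem_nhds hOz, ball_mem_nhds z₀ hρ] with z hz hzB hzZ a
    obtain ⟨h1, h2, h3⟩ := hS1 _ hz.2
    have heq : pr ((rcE N).symm (y' (base (pr z)))) = pr z := by
      refine Prod.ext ?_ (PiLp.ext fun i => i.elim0)
      show (base _).1 = (base (pr z)).1
      rw [h3]
    have hzz : (rcE N).symm (y' (base (pr z))) = z := by
      rw [← C.ψ_π _ (hZB _ hz.2)]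
      show C.ψ (pr _) = z
      rw [heq]; exact C.ψ_π z ⟨hzZ, hzB⟩
    rw [← hzz, ← rcE_apply, (rcE N).apply_symm_apply]
    exact h2 a
  have h00 : h 0 = 0 := by
    show iv (pr ((rcE N).symm (y' 0))).2 = 0
    rw [hy'0, hx₀, rcE_symm_rc, hpr0]
    exact (ivL k).map_zero
  let P : Loc D m k :=
    { toChart := C
      k_pos := hk
      sa_Uc := hUc
      S := ball 0 rS
      h := h
      isOpen_S := isOpen_ball
      zero_mem_S := mem_ball_self hrS
      sa_h := hgraph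
      smooth_h := hhc.mono fun s hs => (hSsub hs).1.1
      h_zero := h00
      dh_zero := hdh
      small_h := fun s hs => (hSsub hs).2.le
      edge_W := fun s hs => by rw [hlift s hs]; exact (hmaps _ (hZB s hs)).1 }
  refine ⟨m, k, P, O, hmk, hOo, hOz, fun z hz hz0 => hpts z hz hz0, ?_⟩
  rintro z ⟨s, hs, rfl⟩
  obtain ⟨h1, h2, -⟩ := hS1 s hs
  have e1 : P.ψ (lift P.h s 0) = (rcE N).symm (y' s) := by
    show C.ψ (lift h s 0) = _
    rw [hlift s hs]; exact C.ψ_π _ (hZB s hs)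
  simp only [e1, mem_inter_iff, mem_ofPred_eq]
  refine ⟨(hboxsub h1).2.2.2, fun a => ?_⟩
  rw [← rcE_apply, (rcE N).apply_symm_apply]; exact h2 a

end

end Vale.Agent.P274.Full.Pieces
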