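import Vale.Agent.P274.Full.Pieces.Local
import Mathlib.Algebra.MvPolynomial.Funext
import Mathlib.Topology.Algebra.MvPolynomial

/-!
The frontier is covered, off the zero set of one polynomial, by countably many generic pieces.
-/

open MvPolynomial Metric Set Filter Topology Matrix Function
open scoped Classical

namespace Vale.Agent.P274.Full.Pieces

noncomputable section

variable {N n : ℕ} {D : CDom N}

theorem isClosed_Z (D : CDom N) : IsClosed D.Z := by
  rw [D.Z_eq]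
  simp only [Set.ofPred_forall]
  exact isClosed_biInter fun p _ =>
    isClosed_eq ((MvPolynomial.continuous_eval p).comp (by fun_prop)) continuous_const

/-- Real and imaginary part of a polynomial, as polynomials in the real coordinates. -/
theorem exists_reim (f : MvPolynomial (Fin N) ℂ) :
    ∃ u v : MvPolynomial (Fin N ⊕ Fin N) ℝ, ∀ z : Cn N,
      eval (rc z) u = (eval (fun i => z i) f).re ∧ eval (rc z) v = (eval (fun i => z i) f).im := by
  induction f using MvPolynomial.induction_on with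
  | C a => exact ⟨MvPolynomial.C a.re, MvPolynomial.C a.im, fun z => by simp⟩
  | add p q hp hq =>
    obtain ⟨u, v, h⟩ := hp
    obtain ⟨u', v', h'⟩ := hq
    exact ⟨u + u', v + v', fun z => by simp [h z, h' z]⟩
  | mul_X p i hp =>
    obtain ⟨u, v, h⟩ := hp
    exact ⟨u * X (.inl i) - v * X (.inr i), u * X (.inr i) + v * X (.inl i), fun z => by
      have h1 : rc z (.inl i) = (z i).re := rfl
      have h2 : rc z (.inr i) = (z i).im := rfl
      simp [h z, h1, h2, Complex.mul_re, Complex.mul_im]⟩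

/-- A linear map which is bijective on the tangent space at the centre of a chart. -/
theorem exists_lin (φ : Chart D n 0) :
    ∃ L : Cn N →L[ℂ] Cn n, Bijective (L.comp (fderiv ℂ φ.ψ 0)) := by
  have hB : φ.ψ 0 ∈ φ.B := (φ.maps_ψ 0 φ.zero_mem).2
  have hdψ : HasFDerivAt φ.ψ (fderiv ℂ φ.ψ 0) 0 :=
    (φ.diff_ψ.differentiableAt (φ.isOpen_W.mem_nhds φ.zero_mem)).hasFDerivAt
  have hdπ : HasFDerivAt φ.π (fderiv ℂ φ.π (φ.ψ 0)) (φ.ψ 0) :=
    (φ.diff_π.differentiableAt (φ.isOpen_B.mem_nhds hB)).hasFDerivAt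
  have hid : (fderiv ℂ φ.π (φ.ψ 0)).comp (fderiv ℂ φ.ψ 0) = ContinuousLinearMap.id ℂ _ :=
    ((hdπ.comp 0 hdψ).congr_of_eventuallyEq
      (eventually_of_mem (φ.isOpen_W.mem_nhds φ.zero_mem) fun x hx => (φ.π_ψ x hx).symm)).unique
      (hasFDerivAt_id 0)
  refine ⟨(ContinuousLinearMap.fst ℂ (Cn n) (Cn 0)).comp (fderiv ℂ φ.π (φ.ψ 0)), ?_⟩
  rw [ContinuousLinearMap.comp_assoc, hid, ContinuousLinearMap.comp_id]
  exact ⟨fun a b h => Prod.ext h (PiLp.ext fun i => i.elim0), fun w => ⟨(w, 0), rfl⟩⟩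

/-- A point of `U` near the centre of a chart where a polynomial in the coordinates is nonzero. -/
theorem exists_point (φ : Chart D n 0) (hφ : φ.ψ 0 ∈ D.U) (L : Cn N →L[ℂ] Cn n)
    (hL : Bijective (L.comp (fderiv ℂ φ.ψ 0))) (P₀ : MvPolynomial (Fin N) ℂ)
    (hP₀ : eval (fun i => φ.ψ 0 i) P₀ ≠ 0) (Q : MvPolynomial (Fin n) ℂ) (hQ : Q ≠ 0) :
    ∃ z ∈ D.U, eval (fun i => z i) P₀ ≠ 0 ∧ eval (fun l => L z l) Q ≠ 0 := by
  have hW := φ.isOpen_W.mem_nhds φ.zero_mem
  have hdψ : HasFDerivAt φ.ψ (fderiv ℂ φ.ψ 0) 0 :=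
    (φ.diff_ψ.differentiableAt hW).hasFDerivAt
  have hf3 : ContDiffAt ℂ 3 (fun x => L (φ.ψ x)) 0 :=
    L.contDiff.contDiffAt.comp 0 ((PatchAux.contDiffOn_of_holo φ.isOpen_W φ.diff_ψ 3).contDiffAt hW)
  obtain ⟨e, r, -, hr, hes, hee, hetgt, hesymm, hecd, -, -, -⟩ :=
    exists_inverse (fun x => L (φ.ψ x)) 0 _ hf3 (L.hasFDerivAt.comp 0 hdψ) hL
  have hc : ContinuousAt φ.ψ 0 := φ.diff_ψ.continuousOn.continuousAt hW
  have hO : D.O ∩ {z | eval (fun i => z i) P₀ ≠ 0} ∈ 𝓝 (φ.ψ 0) :=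
    inter_mem (D.isOpen_O.mem_nhds (D.U_eq ▸ hφ : φ.ψ 0 ∈ D.Z ∩ D.O).2)
      ((isOpen_ne.preimage ((MvPolynomial.continuous_eval P₀).comp (by fun_prop))).mem_nhds hP₀)
  have hsc : ContinuousAt e.symm (L (φ.ψ 0)) :=
    hecd.continuousOn.continuousAt (ball_mem_nhds _ hr)
  have hnb : ball (L (φ.ψ 0)) r ∩ e.symm ⁻¹' (φ.W ∩ φ.ψ ⁻¹' (D.O ∩
      {z | eval (fun i => z i) P₀ ≠ 0})) ∈ 𝓝 (L (φ.ψ 0)) :=
    inter_mem (ball_mem_nhds _ hr) (hsc.preimage_mem_nhds
      (by rw [hesymm]; exact inter_mem hW (hc.preimage_mem_nhds hO)))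
  obtain ⟨ρ, hρ, hsub⟩ := Metric.mem_nhds_iff.1
    ((PiLp.continuous_toLp 2 fun _ : Fin n => ℂ).continuousAt.preimage_mem_nhds
      (x := fun l => L (φ.ψ 0) l) hnb)
  obtain ⟨w, hw, hwQ⟩ : ∃ w ∈ Set.pi univ fun l => ball (L (φ.ψ 0) l) ρ, eval w Q ≠ 0 := by
    by_contra hno
    simp only [not_exists, not_and, not_not] at hno
    exact hQ (MvPolynomial.funext_set (fun l => ball (L (φ.ψ 0) l) ρ)
      (fun l => infinite_of_mem_nhds (L (φ.ψ 0) l) (ball_mem_nhds _ hρ))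
      (fun w hw => by rw [hno w hw, map_zero]))
  have hwb : w ∈ ball (fun l => L (φ.ψ 0) l) ρ :=
    (dist_pi_lt_iff hρ).2 fun l => hw l (mem_univ l)
  obtain ⟨h1, h2, h3, h4⟩ := hsub hwb
  refine ⟨φ.ψ (e.symm (WithLp.toLp 2 w)), ?_, h4, ?_⟩
  · rw [D.U_eq]; exact ⟨(φ.maps_ψ _ h2).1, h3⟩
  · have := e.right_inv (hetgt h1)
    rw [hee] at this
    rwa [this]

/-- The frontier of `U` is semialgebraic. -/
theorem sa_frontier (hp : SAProjStmt) (D : CDom N) :
    SA ((fun z : Cn N => rc z) '' (closure D.U \ D.U)) := by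
  refine ((D.sa_U.closure' hp).diff D.sa_U).of_eq ?_
  rw [Set.image_sdiff (f := fun z : Cn N => rc z) (rcE N).injective]
  refine congrArg (· \ _) ?_
  exact ((rcE N).toHomeomorph.image_closure D.U).symm

/-- Complexified minors. -/
theorem eval_jac_cx {c : ℕ} (p : Fin c → MvPolynomial (Fin N ⊕ Fin N) ℝ)
    (τ : Fin c → Fin N ⊕ Fin N) (x : Fin N ⊕ Fin N → ℝ) :
    eval (cpt x) (jac (fun a => cx (p a)) τ).det = (eval x (jac p τ).det : ℂ) := by
  have : jac (fun a => cx (p a)) τ = (jac p τ).map (MvPolynomial.map Complex.ofRealHom) := by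
    refine Matrix.ext fun a b => ?_
    simp [jac, cx, pderiv_map]
  rw [this, ← RingHom.mapMatrix_apply, ← RingHom.map_det]
  exact eval_cx _ x

/-- The frontier is covered, off the zero set of a polynomial, by countably many generic
pieces. -/
theorem pieces (hp : SAProjStmt) : PieceStmt := by
  intro N D n P₀ hE
  obtain ⟨u₀, hu₀, hu₀P⟩ := hE.nontrivial
  obtain ⟨φu, hφu⟩ := hE.chart u₀ (subset_closure hu₀) (D.U_eq ▸ hu₀ : u₀ ∈ D.Z ∩ D.O).1 hu₀P
  obtain ⟨L, hL⟩ := exists_lin φu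
  obtain ⟨l, R, T, hT⟩ := sa_frontier hp D
  choose reP imP hreim using fun f => exists_reim (N := N) f
  choose PP hPP using fun J : Finset (Fin l) => exists_pieces' (D.eqs.image reP ∪ D.eqs.image imP ∪ J.image R)
  set allP := Finset.univ.biUnion PP with hallP
  -- the set of degenerate points of a piece
  set B : (Σ q : (Σ c, Fin c → MvPolynomial (Fin N ⊕ Fin N) ℝ), Fin q.1 → Fin N ⊕ Fin N) →
      Set (Fin N ⊕ Fin N → ℂ) := fun a => {x | ∃ y, x = cpt y ∧ (∀ b, eval y (a.1.2 b) = 0) ∧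
        eval y (jac a.1.2 a.2).det ≠ 0 ∧ ∀ σ : Fin a.1.1 ⊕ Fin n → Fin N ⊕ Fin N,
          eval (cpt y) (jac (Sum.elim (fun b => cx (a.1.2 b)) (lin L)) σ).det = 0} with hBdef
  have hrel : ∀ a, ∃ Q : MvPolynomial (Fin n) ℂ, Q ≠ 0 ∧
      ∀ x ∈ B a, eval (fun j => eval x (lin L j)) Q = 0 := fun a => by
    refine exists_relation (fun b => cx (a.1.2 b)) (lin L) a.2 (B a) ?_ ?_ ?_
    · rintro x ⟨y, rfl, h1, -, -⟩ b
      rw [eval_cx, h1 b, Complex.ofReal_zero]
    · rintro x ⟨y, rfl, -, h2, -⟩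
      rw [eval_jac_cx]
      exact_mod_cast h2
    · rintro x ⟨y, rfl, -, -, h3⟩ σ
      exact h3 σ
  choose Q hQ hQv using hrel
  set QQ := ∏ a ∈ allP.sigma fun q => (Finset.univ : Finset (Fin q.1 → Fin N ⊕ Fin N)), Q a with hQQ
  set QL : MvPolynomial (Fin N) ℂ := bind₁ (fun j =>
    ∑ i, MvPolynomial.C (L (EuclideanSpace.single i 1) j) * X i) QQ with hQL
  have hQLev : ∀ z : Cn N, eval (fun i => z i) QL = eval (fun j => L z j) QQ := fun z => by
    rw [hQL, MvPolynomial.eval, eval₂Hom_bind₁]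
    refine congrArg (fun g => MvPolynomial.eval₂Hom (RingHom.id ℂ) g QQ) (funext fun j => ?_)
    have e : z = ∑ i, z i • (EuclideanSpace.single i (1 : ℂ) : Cn N) :=
      PiLp.ext fun a => by simp [Pi.single_apply, Finset.sum_apply]
    conv_rhs => rw [e]
    simp [map_sum, mul_comm]
  refine ⟨P₀ * QL, fun z hz => by rw [map_mul, hz, zero_mul], ?_, ?_⟩
  · obtain ⟨z, hzU, hz1, hz2⟩ := exists_point φu (hφu ▸ hu₀) L hL P₀ (hφu ▸ hu₀P) QQ
      (Finset.prod_ne_zero_iff.2 fun a _ => hQ a)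
    exact ⟨z, hzU, by rw [map_mul, hQLev]; exact mul_ne_zero hz1 hz2⟩
  set bad := {z : Cn N | z ∈ closure D.U \ D.U ∧ eval (fun i => z i) (P₀ * QL) ≠ 0} with hbad
  -- one piece at each point, covering one of the regular sets nearby
  have hloc : ∀ z ∈ bad, ∃ q ∈ allP, (∀ a, eval (rc z) (q.2 a) = 0) ∧
      ∃ (m k : ℕ) (P : Loc D m k) (O : Set (Cn N)), m + k = n ∧ IsOpen O ∧ z ∈ O ∧
        (∀ y ∈ O, (∀ a, eval (rc y) (q.2 a) = 0) → y ∈ P.points) ∧
        P.points ⊆ closure D.U \ D.U := by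
    rintro z ⟨hzF, hz1⟩
    rw [map_mul, hQLev, mul_ne_zero_iff] at hz1
    have hzZ : z ∈ D.Z := by
      refine closure_minimal ?_ (isClosed_Z D) hzF.1
      rw [D.U_eq]; exact inter_subset_left
    obtain ⟨φ, hφ⟩ := hE.chart z hzF.1 hzZ hz1.1
    set J : Finset (Fin l) := Finset.univ.filter fun j => eval (rc z) (R j) = 0 with hJ
    have hFz : ∀ f ∈ D.eqs.image reP ∪ D.eqs.image imP ∪ J.image R, eval (rc z) f = 0 := by
      intro f hf
      simp only [Finset.mem_union, Finset.mem_image] at hf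
      have hZ0 : ∀ g ∈ D.eqs, eval (fun i => z i) g = 0 := by
        rw [D.Z_eq] at hzZ; exact hzZ
      rcases hf with (⟨g, hg, rfl⟩ | ⟨g, hg, rfl⟩) | ⟨j, hj, rfl⟩
      · rw [(hreim g z).1, hZ0 g hg, Complex.zero_re]
      · rw [(hreim g z).2, hZ0 g hg, Complex.zero_im]
      · exact (Finset.mem_filter.1 hj).2
    obtain ⟨q, hq, hqreg, hqev⟩ := hPP J (rc z) hFz
    have hqa : q ∈ allP := Finset.mem_biUnion.2 ⟨J, Finset.mem_univ J, hq⟩
    obtain ⟨c, p⟩ := q
    simp only at hqreg hqev ⊢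
    have hM : ∀ᶠ y in 𝓝 (rc z), (∀ a, eval y (p a) = 0) → (rcE N).symm y ∈ D.Z := by
      filter_upwards [hqev] with y hy hy0
      rw [D.Z_eq]
      intro g hg
      have h1 := hy hy0 (reP g)
        (Finset.mem_union_left _ (Finset.mem_union_left _ (Finset.mem_image_of_mem _ hg)))
      have h2 := hy hy0 (imP g)
        (Finset.mem_union_left _ (Finset.mem_union_right _ (Finset.mem_image_of_mem _ hg)))
      rw [← (rcE N).apply_symm_apply y, rcE_apply, (hreim g _).1] at h1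
      rw [← (rcE N).apply_symm_apply y, rcE_apply, (hreim g _).2] at h2
      exact Complex.ext h1 h2
    have hfr : ∀ᶠ y in 𝓝 z, (∀ a, eval (rc y) (p a) = 0) → y ∈ closure D.U \ D.U := by
      have hc : Tendsto (rc : Cn N → _) (𝓝 z) (𝓝 (rc z)) := (rcE N).continuous.tendsto z
      have hs : ∀ j, ∀ᶠ y in 𝓝 z, eval (rc z) (R j) ≠ 0 →
          SignType.sign (eval (rc y) (R j)) = SignType.sign (eval (rc z) (R j)) := fun j => by
        have hcj : ContinuousAt (fun y : Cn N => eval (rc y) (R j)) z :=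
          ((continuous_eval' (R j)).comp (rcE N).continuous).continuousAt
        rcases lt_trichotomy (eval (rc z) (R j)) 0 with h | h | h
        · filter_upwards [hcj.eventually_lt continuousAt_const h] with y hy _
          rw [sign_neg hy, sign_neg h]
        · exact Eventually.of_forall fun y hne => absurd h hne
        · filter_upwards [continuousAt_const.eventually_lt hcj h] with y hy _
          rw [sign_pos hy, sign_pos h]
      filter_upwards [eventually_all.2 hs, hc.eventually hqev] with y hy hy' hy0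
      have hsame : (fun j => SignType.sign (eval (rc y) (R j)))
          = fun j => SignType.sign (eval (rc z) (R j)) := funext fun j => by
        by_cases h : eval (rc z) (R j) = 0
        · rw [h, hy' hy0 (R j) (Finset.mem_union_right _ (Finset.mem_image_of_mem R
            (Finset.mem_filter.2 ⟨Finset.mem_univ j, h⟩)))]
        · exact hy j h
      have h1 := (hT (rc z)).1 ⟨z, hzF, rfl⟩
      rw [← hsame] at h1
      obtain ⟨w, hw, hwy⟩ := (hT (rc y)).2 h1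
      exact (rcE N).injective (hwy : rc w = rc y) ▸ hw
    obtain ⟨hp0, τ, hτ⟩ := hqreg
    obtain ⟨σ, hσ⟩ : ∃ σ : Fin c ⊕ Fin n → Fin N ⊕ Fin N,
        eval (cpt (rc z)) (jac (Sum.elim (fun b => cx (p b)) (lin L)) σ).det ≠ 0 := by
      by_contra hno
      simp only [not_exists, not_not] at hno
      have h0 := hQv ⟨⟨c, p⟩, τ⟩ (cpt (rc z)) ⟨rc z, rfl, hp0, hτ, hno⟩
      simp only [eval_lin_cpt, rcE_symm_rc] at h0
      refine hz1.2 ?_
      rw [hQQ, map_prod]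
      exact Finset.prod_eq_zero (i := ⟨⟨c, p⟩, τ⟩)
        (Finset.mem_sigma.2 ⟨hqa, Finset.mem_univ _⟩) h0
    refine ⟨⟨c, p⟩, hqa, hp0, ?_⟩
    subst hφ
    obtain ⟨m, k, P, O, h1, h2, h3, h4, h5⟩ := exists_loc hp φ p ⟨hp0, τ, hτ⟩ hM L
      (generic_of_minor p L _ σ hσ) (fun hall => by
        obtain ⟨y, ⟨hy1, hy2⟩, hyU⟩ := mem_closure_iff_nhds.1 hzF.1 _ (hall.and hfr)
        have hyZ : y ∈ D.Z := (D.U_eq ▸ hyU : y ∈ D.Z ∩ D.O).1
        exact (hy2 (hy1 hyZ)).2 hyU) hfr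
    exact ⟨m, k, P, O, h1, h2, h3, h4, fun y hy => (h5 hy).1 (h5 hy).2⟩
  replace hloc : ∀ z : bad, ∃ q ∈ allP, (∀ a, eval (rc z.1) (q.2 a) = 0) ∧
      ∃ (m k : ℕ) (P : Loc D m k) (O : Set (Cn N)), m + k = n ∧ IsOpen O ∧ z.1 ∈ O ∧
        (∀ y ∈ O, (∀ a, eval (rc y) (q.2 a) = 0) → y ∈ P.points) ∧
        P.points ⊆ closure D.U \ D.U := fun z => hloc z.1 z.2
  choose q hqA hq0 m k P O hmk hOo hOz hOP hPF using hloc
  -- countable subcover
  have hcov : ∀ q' : (Σ c, Fin c → MvPolynomial (Fin N ⊕ Fin N) ℝ),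
      ∃ t : Set bad, t.Countable ∧
        ∀ y : bad, q y = q' → ∃ x ∈ t, q x = q' ∧ y.1 ∈ O x := fun q' => by
    obtain ⟨t, ht, htc, htU⟩ := TopologicalSpace.countable_cover_nhdsWithin
      (s := {y : bad | q y = q'}) (f := fun x => Subtype.val ⁻¹' O x)
      fun x _ => mem_nhdsWithin_of_mem_nhds
        (continuous_subtype_val.continuousAt.preimage_mem_nhds ((hOo x).mem_nhds (hOz x)))
    refine ⟨t, htc, fun y hyq => ?_⟩
    obtain ⟨x, hx, hxy⟩ := mem_iUnion₂.1 (htU hyq)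
    exact ⟨x, hx, ht hx, hxy⟩
  choose t htc htU using hcov
  set S : Set (Set (Cn N)) := insert ∅ (⋃ q' ∈ allP, (fun x => (P x).points) '' t q') with hS
  have hSc : S.Countable :=
    ((allP.countable_toSet.biUnion fun q' _ => (htc q').image _)).insert ∅
  obtain ⟨Φ, hΦ⟩ := hSc.exists_eq_range (insert_nonempty _ _)
  refine ⟨Φ, fun i => ?_, fun i => ?_, fun z hzF hz1 => ?_⟩
  · have : Φ i ∈ S := hΦ ▸ mem_range_self i
    rcases this with h | h
    · exact Or.inl h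
    · obtain ⟨q', -, x, -, hxe⟩ := mem_iUnion₂.1 h
      exact Or.inr ⟨m x, k x, P x, hmk x, hxe.symm⟩
  · have : Φ i ∈ S := hΦ ▸ mem_range_self i
    rcases this with h | h
    · rw [h]; exact empty_subset _
    · obtain ⟨q', -, x, -, hxe⟩ := mem_iUnion₂.1 h
      rw [← hxe]; exact hPF x
  · set y : bad := ⟨z, hzF, hz1⟩
    obtain ⟨x, hx, hxq, hzx⟩ := htU (q y) y rfl
    have hmem : (P x).points ∈ S :=
      Or.inr (mem_iUnion₂.2 ⟨q y, hqA y, x, hx, rfl⟩)
    rw [hΦ] at hmem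
    obtain ⟨i, hi⟩ := hmem
    exact ⟨i, hi ▸ hOP x z hzx (hxq ▸ hq0 y)⟩

end

end Vale.Agent.P274.Full.Pieces
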