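import Vale.Agent.P274.Full.Pieces.Alg
import Mathlib.Analysis.Calculus.ContDiff.Operations
import Mathlib.Analysis.Calculus.InverseFunctionTheorem.ContDiff
import Mathlib.Analysis.Calculus.FDeriv.Prod
import Mathlib.Analysis.Normed.Module.FiniteDimension

/-!
Real polynomials as smooth functions, and local inverses.
-/

open MvPolynomial Metric Set Filter Topology

namespace Vale.Agent.P274.Full.Pieces

noncomputable section

variable {κ : Type} [Fintype κ]

/-- The differential of a polynomial at a point. -/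
def dP (f : MvPolynomial κ ℝ) (x : κ → ℝ) : (κ → ℝ) →L[ℝ] ℝ :=
  ∑ i, eval x (pderiv i f) • ContinuousLinearMap.proj i

theorem dP_apply (f : MvPolynomial κ ℝ) (x v : κ → ℝ) :
    dP f x v = ∑ i, eval x (pderiv i f) * v i := by
  simp [dP]

theorem hasFDerivAt_eval (f : MvPolynomial κ ℝ) (x : κ → ℝ) :
    HasFDerivAt (fun y => eval y f) (dP f x) x := by
  classical
  induction f using MvPolynomial.induction_on with
  | C a =>
    have h : dP (C a) x = 0 := by ext v; simp [dP_apply]
    simpa [h] using hasFDerivAt_const (𝕜 := ℝ) a x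
  | add p q hp hq =>
    have h : dP (p + q) x = dP p x + dP q x := by
      ext v; simp [dP_apply, add_mul, Finset.sum_add_distrib]
    rw [h]
    simpa only [map_add, Pi.add_def] using hp.add hq
  | mul_X p i hp =>
    have h : dP (p * X i) x = eval x p • ContinuousLinearMap.proj i + x i • dP p x := by
      ext v
      simp [dP_apply, pderiv_X, Pi.single_apply, add_mul, Finset.sum_add_distrib,
        Finset.mul_sum, apply_ite (eval x)]
      exact Finset.sum_congr rfl fun j _ => by ring
    rw [h]
    simpa only [map_mul, eval_X, Pi.mul_def] using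
      hp.mul (hasFDerivAt_apply (𝕜 := ℝ) (F' := fun _ : κ => ℝ) i x)

theorem contDiff_eval (f : MvPolynomial κ ℝ) {r : ℕ∞} :
    ContDiff ℝ r fun y : κ → ℝ => eval y f := by
  induction f using MvPolynomial.induction_on with
  | C a => simpa using contDiff_const
  | add p q hp hq => simpa only [map_add] using hp.add hq
  | mul_X p i hp =>
    simpa only [map_mul, eval_X] using hp.mul (contDiff_apply ℝ ℝ i)

theorem continuous_eval' (f : MvPolynomial κ ℝ) : Continuous fun y : κ → ℝ => eval y f :=
  (contDiff_eval f (r := 0)).continuous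

/-- The local inverse of a smooth map with bijective derivative. -/
theorem exists_inverse {𝕂 : Type*} [RCLike 𝕂] {E F : Type*} [NormedAddCommGroup E]
    [NormedSpace 𝕂 E] [FiniteDimensional 𝕂 E] [NormedAddCommGroup F] [NormedSpace 𝕂 F]
    [FiniteDimensional 𝕂 F] (G : E → F) (a : E) (A : E →L[𝕂] F) (hG : ContDiffAt 𝕂 3 G a)
    (hA : HasFDerivAt G A a) (hb : Function.Bijective A) :
    ∃ (e : OpenPartialHomeomorph E F) (r : ℝ) (A' : F →L[𝕂] E), 0 < r ∧ a ∈ e.source ∧
      (∀ y, e y = G y) ∧ ball (G a) r ⊆ e.target ∧ e.symm (G a) = a ∧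
      ContDiffOn 𝕂 3 e.symm (ball (G a) r) ∧ HasFDerivAt e.symm A' (G a) ∧
      (∀ v, A' (A v) = v) ∧ ∀ w, A (A' w) = w := by
  have : CompleteSpace E := FiniteDimensional.complete 𝕂 E
  have : CompleteSpace F := FiniteDimensional.complete 𝕂 F
  set L : E ≃L[𝕂] F := (LinearEquiv.ofBijective A.toLinearMap hb).toContinuousLinearEquiv with hL
  have hA' : HasFDerivAt G (L : E →L[𝕂] F) a := by
    have : (L : E →L[𝕂] F) = A := by ext v; rfl
    rwa [this]
  set e := hG.toOpenPartialHomeomorph G hA' (by norm_num) with he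
  have hsrc : a ∈ e.source := hG.mem_toOpenPartialHomeomorph_source hA' (by norm_num)
  have htgt : G a ∈ e.target := hG.image_mem_toOpenPartialHomeomorph_target hA' (by norm_num)
  have hsm : e.symm (G a) = a := e.left_inv hsrc
  have hcd : ContDiffAt 𝕂 3 e.symm (G a) := hG.to_localInverse hA' (by norm_num)
  obtain ⟨u, hu, hun⟩ := hcd.contDiffOn le_rfl (by simp)
  obtain ⟨r, hr, hsub⟩ := Metric.mem_nhds_iff.1 (inter_mem hu (e.open_target.mem_nhds htgt))
  refine ⟨e, r, (L.symm : F →L[𝕂] E), hr, hsrc, fun y => rfl, fun y hy => (hsub hy).2, hsm,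
    hun.mono fun y hy => (hsub hy).1, ?_, fun v => L.symm_apply_apply v,
    fun w => L.apply_symm_apply w⟩
  refine e.hasFDerivAt_symm htgt ?_
  rw [hsm]
  exact hA'

end

end Vale.Agent.P274.Full.Pieces
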