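import Vale.Agent.P274.Full.Pieces.Poly
import Mathlib.RingTheory.Polynomial.Basic
import Mathlib.Analysis.ODE.Gronwall
import Mathlib.Analysis.Calculus.Deriv.Prod

/-!
Finitely many pieces, each cut out by equations with independent differentials, through every
point of a real algebraic set, each contained in the set near that point.
-/

open MvPolynomial Metric Set Filter Topology Matrix
open scoped Classical

namespace Vale.Agent.P274.Full.Pieces

noncomputable section

variable {κ : Type} [Fintype κ] {c : ℕ}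

/-- The points where some equations vanish with a nonzero minor of their differentials. -/
def regZero (p : Fin c → MvPolynomial κ ℝ) : Set (κ → ℝ) :=
  {x | (∀ a, eval x (p a) = 0) ∧ ∃ τ : Fin c → κ, eval x (jac p τ).det ≠ 0}

/-- The equations with one more polynomial. -/
def stack (p : Fin c → MvPolynomial κ ℝ) (h : MvPolynomial κ ℝ) :
    Fin c ⊕ Unit → MvPolynomial κ ℝ :=
  Sum.elim p fun _ => h

omit [Fintype κ] in
theorem injective_of_jac {r R : Type*} [Fintype r] [DecidableEq r] [CommRing R]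
    (f : r → MvPolynomial κ R) (τ : r → κ) (h : (jac f τ).det ≠ 0) : Function.Injective τ := by
  intro a b hab
  by_contra hne
  exact h (Matrix.det_zero_of_column_eq hne fun k => by simp [jac, hab])

omit [Fintype κ] in
theorem injective_of_minor {p : Fin c → MvPolynomial κ ℝ} {τ : Fin c → κ} {x : κ → ℝ}
    (h : eval x (jac p τ).det ≠ 0) : Function.Injective τ :=
  injective_of_jac p τ fun h' => h (by rw [h', map_zero])

/-- A linear combination of the derivatives of `h` along vectors annihilated by the `dp`. -/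
theorem minor_mul_dP (p : Fin c → MvPolynomial κ ℝ) (τ : Fin c → κ) (h : MvPolynomial κ ℝ)
    (y v : κ → ℝ) (hv : ∀ a, dP (p a) y v = 0) :
    eval y (jac p τ).det * dP h y v = ∑ σ : Fin c ⊕ Unit → κ,
      (∏ b, Sum.elim (fun b' => fun i => if i = τ b' then (1 : ℝ) else 0) (fun _ => v) b (σ b))
        * eval y (jac (stack p h) σ).det := by
  classical
  set C : Matrix κ (Fin c ⊕ Unit) ℝ :=
    Matrix.of fun i b => Sum.elim (fun b' => fun i => if i = τ b' then (1 : ℝ) else 0)
      (fun _ => v) b i with hC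
  set M : Matrix (Fin c ⊕ Unit) κ ℝ := Matrix.of fun a i => eval y (pderiv i (stack p h a)) with hM
  have h1 : M * C = Matrix.fromBlocks ((jac p τ).map (eval y)) 0
      (Matrix.of fun _ b => eval y (pderiv (τ b) h)) (Matrix.of fun _ _ => dP h y v) := by
    ext a b
    rcases a with a | a <;> rcases b with b | b <;>
      simp [hM, hC, Matrix.mul_apply, jac, stack, ← dP_apply, hv]
  have h2 := det_mul_sum M C
  rw [h1, Matrix.det_fromBlocks_zero₁₂, Matrix.det_unique (n := Unit)] at h2
  rw [RingHom.map_det, RingHom.mapMatrix_apply]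
  refine h2.trans (Finset.sum_congr rfl fun σ _ => ?_)
  congr 1
  rw [RingHom.map_det, RingHom.mapMatrix_apply]
  congr 1

theorem abs_sum_mul_le {ι : Type*} [Fintype ι] (w d B : ι → ℝ) {M : ℝ}
    (h : ∀ i, |d i| ≤ B i * M) : |∑ i, w i * d i| ≤ (∑ i, |w i| * B i) * M := by
  refine (Finset.abs_sum_le_sum_abs _ _).trans ?_
  rw [Finset.sum_mul]
  refine Finset.sum_le_sum fun i _ => ?_
  rw [abs_mul, mul_assoc]
  exact mul_le_mul_of_nonneg_left (h i) (abs_nonneg _)

theorem div_bound {d a B M : ℝ} (hd : 0 < d) (h : d * a ≤ B * M) : a ≤ B / d * M := by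
  rw [div_mul_eq_mul_div, le_div_iff₀ hd]
  linarith

/-- A solution of a linear differential inequality with zero initial value is zero. -/
theorem linear_zero {ι : Type*} [Fintype ι] (H H' k : ℝ → ι → ℝ)
    (hd : ∀ t ∈ Icc (0 : ℝ) 1, HasDerivAt H (H' t) t)
    (hk : ∀ i, ContinuousOn (fun t => k t i) (Icc 0 1))
    (hb : ∀ t ∈ Icc (0 : ℝ) 1, ∀ i, |H' t i| ≤ k t i * ‖H t‖) (h0 : H 0 = 0) : H 1 = 0 := by
  have hkc : ContinuousOn k (Icc 0 1) := continuousOn_pi.2 hk
  obtain ⟨K, hK⟩ := isCompact_Icc.exists_bound_of_continuousOn hkc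
  have hK0 : 0 ≤ K := (norm_nonneg _).trans (hK 0 (left_mem_Icc.2 zero_le_one))
  have hbound : ∀ t ∈ Ico (0 : ℝ) 1, ‖H' t‖ ≤ K * ‖H t‖ + 0 := fun t ht => by
    rw [add_zero]
    refine (pi_norm_le_iff_of_nonneg (mul_nonneg hK0 (norm_nonneg _))).2 fun i => ?_
    refine (hb t (Ico_subset_Icc_self ht) i).trans ?_
    refine mul_le_mul_of_nonneg_right ?_ (norm_nonneg _)
    exact (le_abs_self _).trans ((norm_le_pi_norm (k t) i).trans (hK t (Ico_subset_Icc_self ht)))
  have h1 := norm_le_gronwallBound_of_norm_deriv_right_le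
    (fun t ht => (hd t ht).continuousAt.continuousWithinAt)
    (fun t ht => (hd t (Ico_subset_Icc_self ht)).hasDerivWithinAt) (by rw [h0, norm_zero]) hbound 1
    (right_mem_Icc.2 zero_le_one)
  rw [gronwallBound_ε0_δ0] at h1
  exact norm_le_zero_iff.1 h1

/-- A finite set of polynomials closed under derivatives along the piece vanishes along a curve in
the piece once it vanishes at one end. -/
theorem curve_zero (p : Fin c → MvPolynomial κ ℝ) (τ : Fin c → κ) (L : Finset (MvPolynomial κ ℝ))
    (hL : ∀ h ∈ L, ∀ σ, (jac (stack p h) σ).det ∈ Ideal.span (L : Set (MvPolynomial κ ℝ)))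
    {T : Set ℝ} (hTo : IsOpen T) (hIT : Icc (0 : ℝ) 1 ⊆ T) {γ : ℝ → κ → ℝ}
    (hγc : ContDiffOn ℝ 3 γ T) (hpγ : ∀ t ∈ T, ∀ a, eval (γ t) (p a) = 0)
    (hδ : ∀ t ∈ T, eval (γ t) (jac p τ).det ≠ 0) (h0 : ∀ h ∈ L, eval (γ 0) h = 0) :
    ∀ h ∈ L, eval (γ 1) h = 0 := by
  have hγd : ∀ t ∈ T, HasDerivAt γ (deriv γ t) t := fun t ht =>
    ((hγc.differentiableOn (by norm_num)).differentiableAt (hTo.mem_nhds ht)).hasDerivAt
  have hγ' : ContinuousOn (deriv γ) T := hγc.continuousOn_deriv_of_isOpen hTo (by norm_num)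
  have hv : ∀ t ∈ T, ∀ a, dP (p a) (γ t) (deriv γ t) = 0 := fun t ht a =>
    ((hasFDerivAt_eval (p a) (γ t)).comp_hasDerivAt t (hγd t ht)).unique
      ((hasDerivAt_const t (0 : ℝ)).congr_of_eventuallyEq
        (eventually_of_mem (hTo.mem_nhds ht) fun s hs => hpγ s hs a))
  choose cf hcf using fun (h : L) σ => Submodule.mem_span_finset.1 (hL h.1 h.2 σ)
  have hev : ∀ f : MvPolynomial κ ℝ, ContinuousOn (fun t => eval (γ t) f) (Icc 0 1) := fun f =>
    (continuous_eval' f).comp_continuousOn (hγc.continuousOn.mono hIT)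
  let w : ℝ → (Fin c ⊕ Unit → κ) → ℝ := fun t σ =>
    ∏ b, Sum.elim (fun b' => fun i => if i = τ b' then (1 : ℝ) else 0) (fun _ => deriv γ t) b (σ b)
  have hwc : ∀ σ, ContinuousOn (fun t => w t σ) (Icc 0 1) := fun σ =>
    continuousOn_finsetProd _ fun b _ => by
      rcases b with b | b
      · exact continuousOn_const
      · exact (continuous_apply _).comp_continuousOn (hγ'.mono hIT)
  have h1 := linear_zero (fun t (h : L) => eval (γ t) h.1)
    (fun t h => dP h.1 (γ t) (deriv γ t))
    (fun t h => (∑ σ, |w t σ| * ∑ g : L, |eval (γ t) (cf h σ g.1)|) / |eval (γ t) (jac p τ).det|)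
    (fun t ht => hasDerivAt_pi.2 fun h =>
      (hasFDerivAt_eval h.1 (γ t)).comp_hasDerivAt t (hγd t (hIT ht)))
    (fun h => ContinuousOn.div
      (continuousOn_finsetSum _ fun σ _ => (hwc σ).abs.mul
        (continuousOn_finsetSum _ fun g _ => (hev _).abs)) (hev _).abs
      fun t ht => abs_ne_zero.2 (hδ t (hIT ht)))
    (fun t ht h => div_bound (abs_pos.2 (hδ t (hIT ht))) (by
      rw [← abs_mul, minor_mul_dP p τ h.1 (γ t) (deriv γ t) (hv t (hIT ht))]
      refine abs_sum_mul_le (w t) _ _ fun σ => ?_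
      rw [← (hcf h σ).2, ← Finset.sum_coe_sort L, map_sum]
      refine (Finset.abs_sum_le_sum_abs _ _).trans ?_
      rw [Finset.sum_mul]
      refine Finset.sum_le_sum fun g _ => ?_
      rw [smul_eq_mul, map_mul, abs_mul]
      exact mul_le_mul_of_nonneg_left (norm_le_pi_norm (fun h : L => eval (γ t) h.1) g)
        (abs_nonneg _)))
    (funext fun h => h0 h.1 h.2)
  exact fun h hh => congrFun h1 ⟨h, hh⟩

/-- A finite set of polynomials whose derivatives along a piece are in its ideal vanishes on the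
piece near each of its zeros. -/
theorem local_zero (p : Fin c → MvPolynomial κ ℝ) (L : Finset (MvPolynomial κ ℝ))
    (hL : ∀ h ∈ L, ∀ σ, (jac (stack p h) σ).det ∈ Ideal.span (L : Set (MvPolynomial κ ℝ)))
    {x : κ → ℝ} (hx : x ∈ regZero p) (h0 : ∀ h ∈ L, eval x h = 0) :
    ∀ᶠ y in 𝓝 x, (∀ a, eval y (p a) = 0) → ∀ h ∈ L, eval y h = 0 := by
  classical
  obtain ⟨hp, τ, hτ⟩ := hx
  have hinj : Function.Injective τ := injective_of_minor hτ
  set G : (κ → ℝ) → κ → ℝ :=
    fun y => Function.extend τ (fun b => eval y (p b)) (fun i => y i - x i) with hG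
  have hGr : ∀ y b, G y (τ b) = eval y (p b) := fun y b => hinj.extend_apply _ _ b
  have hGn : ∀ y i, (¬∃ b, τ b = i) → G y i = y i - x i :=
    fun y i hi => Function.extend_apply' _ _ i hi
  set A : (κ → ℝ) →L[ℝ] κ → ℝ := ContinuousLinearMap.pi
    (Function.extend τ (fun b => dP (p b) x) fun i => ContinuousLinearMap.proj i) with hA
  have hG3 : ContDiff ℝ 3 G := contDiff_pi.2 fun i => by
    by_cases hi : ∃ b, τ b = i
    · obtain ⟨b, rfl⟩ := hi
      simp only [hGr]
      exact contDiff_eval (p b) (r := 3)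
    · simpa only [hGn _ i hi] using (contDiff_apply ℝ ℝ i).sub contDiff_const
  have hGA : HasFDerivAt G A x := hasFDerivAt_pi'' fun i => by
    by_cases hi : ∃ b, τ b = i
    · obtain ⟨b, rfl⟩ := hi
      simp only [hGr, hA, ContinuousLinearMap.proj_pi, hinj.extend_apply]
      exact hasFDerivAt_eval (p b) x
    · simp only [hGn _ i hi, hA, ContinuousLinearMap.proj_pi, Function.extend_apply' _ _ i hi]
      exact (hasFDerivAt_apply (𝕜 := ℝ) (F' := fun _ : κ => ℝ) i x).sub_const (x i)
  have hAi : Function.Injective A := (injective_iff_map_eq_zero A).2 fun v hv => by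
    have hn : ∀ i, (¬∃ b, τ b = i) → v i = 0 := fun i hi => by
      have := congrFun hv i
      simpa [hA, Function.extend_apply' _ _ i hi] using this
    have hw : (fun b => v (τ b)) = 0 := by
      refine Matrix.eq_zero_of_mulVec_eq_zero (M := (jac p τ).map (eval x)) ?_ (funext fun a => ?_)
      · rwa [← RingHom.mapMatrix_apply, ← RingHom.map_det]
      · have := congrFun hv (τ a)
        simp only [hA, ContinuousLinearMap.coe_pi', hinj.extend_apply, Pi.zero_apply, dP_apply]
          at this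
        rw [Pi.zero_apply, ← this]
        exact Fintype.sum_of_injective τ hinj _ _
          (fun i hi => by rw [hn i (by simpa using hi), mul_zero]) fun b => rfl
    funext i
    by_cases hi : ∃ b, τ b = i
    · obtain ⟨b, rfl⟩ := hi; exact congrFun hw b
    · exact hn i hi
  obtain ⟨e, r, A', hr, hxs, he, htgt, hsx, hcd, -, -, -⟩ := exists_inverse G x A hG3.contDiffAt hGA
    ⟨hAi, LinearMap.injective_iff_surjective.1 (show Function.Injective A.toLinearMap from hAi)⟩
  have hGx : G x = 0 := funext fun i => by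
    by_cases hi : ∃ b, τ b = i
    · obtain ⟨b, rfl⟩ := hi; simp [hGr, hp]
    · simp [hGn _ i hi]
  rw [hGx] at htgt hcd hsx
  obtain ⟨r', hr', hsub⟩ : ∃ r' > 0, ∀ w ∈ ball (0 : κ → ℝ) r',
      w ∈ ball (0 : κ → ℝ) r ∧ eval (e.symm w) (jac p τ).det ≠ 0 := by
    have hc : ContinuousAt (fun w => eval (e.symm w) (jac p τ).det) 0 :=
      (continuous_eval' _).continuousAt.comp
        (hcd.continuousOn.continuousAt (ball_mem_nhds 0 hr))
    have hm : ball (0 : κ → ℝ) r ∩ {w | eval (e.symm w) (jac p τ).det ≠ 0} ∈ 𝓝 (0 : κ → ℝ) :=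
      inter_mem (ball_mem_nhds 0 hr)
        (hc.eventually_ne (show eval (e.symm 0) (jac p τ).det ≠ 0 by rwa [hsx]))
    obtain ⟨r', hr', hh⟩ := Metric.mem_nhds_iff.1 hm
    exact ⟨r', hr', fun w hw => hh hw⟩
  have hnhds : ∀ᶠ y in 𝓝 x, y ∈ e.source ∧ G y ∈ ball (0 : κ → ℝ) r' :=
    (e.open_source.eventually_mem hxs).and
      (hG3.continuous.continuousAt.preimage_mem_nhds (by rw [hGx]; exact ball_mem_nhds 0 hr'))
  filter_upwards [hnhds] with y ⟨hys, hyb⟩ hpy
  set T : Set ℝ := {t | t • G y ∈ ball (0 : κ → ℝ) r'} with hT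
  have hTo : IsOpen T := isOpen_ball.preimage (by fun_prop)
  have hIT : Icc (0 : ℝ) 1 ⊆ T := fun t ht => by
    simp only [hT, Set.mem_ofPred_eq]
    rw [mem_ball_zero_iff] at hyb ⊢
    rw [norm_smul, Real.norm_of_nonneg ht.1]
    exact lt_of_le_of_lt (mul_le_of_le_one_left (norm_nonneg _) ht.2) hyb
  have hγc : ContDiffOn ℝ 3 (fun t : ℝ => e.symm (t • G y)) T :=
    hcd.comp (contDiff_id.smul contDiff_const).contDiffOn fun t ht => (hsub _ ht).1
  have hpγ : ∀ t ∈ T, ∀ a, eval (e.symm (t • G y)) (p a) = 0 := fun t ht a => by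
    rw [← hGr, ← he, e.right_inv (htgt (hsub _ ht).1)]
    simp [hGr, hpy]
  have h1 := curve_zero p τ L hL hTo hIT hγc hpγ (fun t ht => (hsub _ ht).2)
    (by simpa [hsx] using h0)
  intro h hh
  have h2 := h1 h hh
  rw [show e.symm ((1 : ℝ) • G y) = y by rw [one_smul, ← he, e.left_inv hys]] at h2
  exact h2

/-- Finitely many pieces through all points of the common zeros of `F` on a piece. -/
theorem exists_pieces (F : Finset (MvPolynomial κ ℝ)) :
    ∀ (d c : ℕ) (p : Fin c → MvPolynomial κ ℝ), Fintype.card κ + 1 - c = d →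
      ∃ PP : Finset (Σ c, Fin c → MvPolynomial κ ℝ), ∀ x ∈ regZero p, (∀ f ∈ F, eval x f = 0) →
        ∃ q ∈ PP, x ∈ regZero q.2 ∧
          ∀ᶠ y in 𝓝 x, (∀ a, eval y (q.2 a) = 0) → ∀ f ∈ F, eval y f = 0 := by
  classical
  intro d
  induction d using Nat.strong_induction_on with
  | _ d ih =>
    intro c p hd
    by_cases hc : Fintype.card κ < c
    · refine ⟨∅, fun x hx => absurd hx.2 ?_⟩
      rintro ⟨τ, hτ⟩
      have := Fintype.card_le_of_injective τ (injective_of_minor hτ)
      simp at this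
      omega
    let step : Finset (MvPolynomial κ ℝ) → Finset (MvPolynomial κ ℝ) := fun L =>
      L ∪ L.biUnion fun g => Finset.univ.image fun σ => (jac (stack p g) σ).det
    let L : ℕ → Finset (MvPolynomial κ ℝ) := fun r => step^[r] F
    have hLs : ∀ r, L (r + 1) = step (L r) := fun r => Function.iterate_succ_apply' step r F
    have hmono : Monotone L := monotone_nat_of_le_succ fun r => by
      rw [hLs]; exact Finset.subset_union_left
    obtain ⟨R, hR⟩ := monotone_stabilizes_iff_noetherian.2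
      (inferInstance : IsNoetherian (MvPolynomial κ ℝ) (MvPolynomial κ ℝ))
      ⟨fun r => Ideal.span (L r : Set (MvPolynomial κ ℝ)),
        fun a b hab => Ideal.span_mono (Finset.coe_subset.2 (hmono hab))⟩
    have hclosed : ∀ h ∈ L R, ∀ σ,
        (jac (stack p h) σ).det ∈ Ideal.span (L R : Set (MvPolynomial κ ℝ)) := fun h hh σ => by
      have e : Ideal.span (L R : Set (MvPolynomial κ ℝ))
          = Ideal.span (L (R + 1) : Set (MvPolynomial κ ℝ)) := hR (R + 1) R.le_succ
      rw [e]
      refine Ideal.subset_span (Finset.mem_coe.2 ?_)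
      rw [hLs]
      exact Finset.mem_union_right _ (Finset.mem_biUnion.2
        ⟨h, hh, Finset.mem_image.2 ⟨σ, Finset.mem_univ _, rfl⟩⟩)
    let eq : Fin (c + 1) ≃ Fin c ⊕ Unit := Fintype.equivOfCardEq (by simp)
    have hrec : ∀ g : MvPolynomial κ ℝ, ∃ PP : Finset (Σ c, Fin c → MvPolynomial κ ℝ),
        ∀ x ∈ regZero (stack p g ∘ eq), (∀ f ∈ F, eval x f = 0) →
        ∃ q ∈ PP, x ∈ regZero q.2 ∧
          ∀ᶠ y in 𝓝 x, (∀ a, eval y (q.2 a) = 0) → ∀ f ∈ F, eval y f = 0 :=
      fun g => ih (Fintype.card κ + 1 - (c + 1)) (by omega) (c + 1) _ rfl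
    choose PP hPP using hrec
    refine ⟨insert ⟨c, p⟩ ((L R).biUnion PP), fun x hx hF => ?_⟩
    by_cases hall : ∀ h ∈ L R, eval x h = 0
    · refine ⟨⟨c, p⟩, Finset.mem_insert_self _ _, hx, ?_⟩
      filter_upwards [local_zero p (L R) hclosed hx hall] with y hy hpy f hf
      exact hy hpy f (hmono (Nat.zero_le R) hf)
    · have hex : ∀ r ≤ R, (∀ h ∈ L r, eval x h = 0) ∨ ∃ g ∈ L R, x ∈ regZero (stack p g ∘ eq) := by
        intro r
        induction r with
        | zero => exact fun _ => Or.inl hF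
        | succ r ihr =>
          intro hrR
          rcases ihr (by omega) with h | h
          swap
          · exact Or.inr h
          by_cases hsucc : ∀ h ∈ L (r + 1), eval x h = 0
          · exact Or.inl hsucc
          right
          simp only [not_forall] at hsucc
          obtain ⟨f, hf, hfx⟩ := hsucc
          rw [hLs] at hf
          rcases Finset.mem_union.1 hf with hf | hf
          · exact absurd (h f hf) hfx
          obtain ⟨g, hg, hf⟩ := Finset.mem_biUnion.1 hf
          obtain ⟨σ, -, rfl⟩ := Finset.mem_image.1 hf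
          refine ⟨g, hmono (by omega : r ≤ R) hg, fun a => ?_, σ ∘ eq, ?_⟩
          · show eval x (Sum.elim p (fun _ => g) (eq a)) = 0
            rcases eq a with a' | a'
            · exact hx.1 a'
            · exact h g hg
          · have : jac (stack p g ∘ eq) (σ ∘ eq) = (jac (stack p g) σ).submatrix eq eq := by
              ext a b; simp [jac]
            rwa [this, Matrix.det_submatrix_equiv_self]
      rcases hex R le_rfl with h | ⟨g, hg, hxg⟩
      · exact absurd h hall
      · obtain ⟨q, hq, hq'⟩ := hPP g x hxg hF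
        exact ⟨q, Finset.mem_insert_of_mem (Finset.mem_biUnion.2 ⟨g, hg, hq⟩), hq'⟩

/-- Finitely many pieces through all common zeros of `F`. -/
theorem exists_pieces' (F : Finset (MvPolynomial κ ℝ)) :
    ∃ PP : Finset (Σ c, Fin c → MvPolynomial κ ℝ), ∀ x, (∀ f ∈ F, eval x f = 0) →
      ∃ q ∈ PP, x ∈ regZero q.2 ∧
        ∀ᶠ y in 𝓝 x, (∀ a, eval y (q.2 a) = 0) → ∀ f ∈ F, eval y f = 0 := by
  obtain ⟨PP, h⟩ := exists_pieces F (Fintype.card κ + 1) 0 (fun a => a.elim0) rfl
  exact ⟨PP, fun x hx => h x ⟨fun a => a.elim0, fun a => a.elim0, by simp⟩ hx⟩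

end

end Vale.Agent.P274.Full.Pieces
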